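import Crest.Agent.R323.Choose

/-! Single-fold elimination of the bounded universal quantifier. -/

set_option autoImplicit false

namespace Crest.Agent.R323

open Finset Sum

lemma dvd_of_eq {a b c : ℤ} (h : a ∣ b) (e : b = c) : a ∣ c := e ▸ h

/-- the common residue -/
def qq (t : ℕ) : ℕ := t.factorial ^ 2 - 1

/-- the moduli -/
def mm (t y : ℕ) : ℕ := t.factorial ^ 2 / (y + 1) - 1

lemma mm_succ {t y : ℕ} (hy : y < t) :
    ∃ c, 0 < c ∧ t.factorial = (y + 1) * c ∧ mm t y + 1 = t.factorial * c := by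
  obtain ⟨c, hc⟩ : (y + 1) ∣ t.factorial := Nat.dvd_factorial (by omega) hy
  have hf := Nat.factorial_pos t
  have hc0 : 0 < c := Nat.pos_of_ne_zero (by rintro rfl; simp at hc; omega)
  refine ⟨c, hc0, hc, ?_⟩
  have : t.factorial ^ 2 / (y + 1) = t.factorial * c := by
    rw [sq]
    nth_rewrite 2 [hc]
    rw [mul_left_comm, Nat.mul_div_cancel_left _ (by omega)]
  rw [mm, this]
  have : 0 < t.factorial * c := by positivity
  omega

lemma mm_mul {t y : ℕ} (hy : y < t) : (y + 1) * mm t y + y = qq t := by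
  obtain ⟨c, -, h1, h2⟩ := mm_succ hy
  have : (y + 1) * (mm t y + 1) = t.factorial ^ 2 := by
    rw [h2, mul_left_comm, ← h1, sq]
  rw [qq, ← this]
  have : (y + 1) * (mm t y + 1) = (y + 1) * mm t y + y + 1 := by ring
  omega

lemma mm_prime {t y l : ℕ} (hy : y < t) (hl : l.Prime) (h : l ∣ mm t y) : t < l := by
  obtain ⟨c, -, -, h2⟩ := mm_succ hy
  by_contra hc
  have h3 : l ∣ t.factorial := Nat.dvd_factorial hl.pos (by omega)
  have h4 : l ∣ mm t y + 1 := h2 ▸ h3.mul_right c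
  exact hl.one_lt.ne' (Nat.dvd_one.1 ((Nat.dvd_add_right h).1 h4))

lemma one_lt_mm {t y : ℕ} (hy : y < t) (ht : 3 ≤ t) : 1 < mm t y := by
  obtain ⟨c, hc, -, h2⟩ := mm_succ hy
  have h3 : t ≤ t.factorial := Nat.self_le_factorial t
  have : t.factorial ≤ t.factorial * c := Nat.le_mul_of_pos_right _ hc
  omega

lemma mm_dvd {t y : ℕ} (hy : y < t) : (mm t y : ℤ) ∣ (qq t : ℤ) - y := by
  rw [← mm_mul hy]; push_cast
  exact ⟨y + 1, by ring⟩

lemma eq_of_dvd_sub {l i j : ℕ} (hi : i < l) (hj : j < l) (h : (l : ℤ) ∣ (i : ℤ) - j) : i = j := by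
  have := Int.eq_zero_of_abs_lt_dvd h (by rw [abs_lt]; constructor <;> omega)
  omega

lemma mm_coprime {t y y' : ℕ} (hy : y < t) (hy' : y' < t) (hne : y ≠ y') :
    (mm t y).Coprime (mm t y') := by
  refine Nat.coprime_of_dvd fun l hl h1 h2 => hne ?_
  have hlt := mm_prime hy hl h1
  have a1 : (l : ℤ) ∣ (qq t : ℤ) - y := (Int.natCast_dvd_natCast.2 h1).trans (mm_dvd hy)
  have a2 : (l : ℤ) ∣ (qq t : ℤ) - y' := (Int.natCast_dvd_natCast.2 h2).trans (mm_dvd hy')
  have a3 := dvd_sub a2 a1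
  refine eq_of_dvd_sub (l := l) (by omega) (by omega) (dvd_of_eq a3 (by ring))

lemma prod_mm {t b : ℕ} (hb : b ≤ t) : ∏ y ∈ range b, mm t y = (qq t).choose b := by
  have h1 : b.factorial * ∏ y ∈ range b, mm t y = (qq t).descFactorial b := by
    rw [← Finset.prod_range_add_one_eq_factorial, ← prod_mul_distrib,
      Nat.descFactorial_eq_prod_range]
    refine prod_congr rfl fun y hy => ?_
    have := mm_mul (t := t) (y := y) (by rw [mem_range] at hy; omega)
    omega
  rw [Nat.descFactorial_eq_factorial_mul_choose] at h1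
  exact Nat.eq_of_mul_eq_mul_left (Nat.factorial_pos b) h1

lemma mm_dvd_choose {t b y : ℕ} (hb : b ≤ t) (hy : y < b) : mm t y ∣ (qq t).choose b := by
  rw [← prod_mm hb]; exact dvd_prod_of_mem _ (mem_range.2 hy)

lemma choose_dvd {t b : ℕ} (hb : b ≤ t) {a : ℤ} (h : ∀ y < b, (mm t y : ℤ) ∣ a) :
    ((qq t).choose b : ℤ) ∣ a := by
  rw [← prod_mm hb]
  push_cast
  refine Finset.prod_dvd_of_coprime ?_ fun y hy => h y (mem_range.1 hy)
  intro y hy y' hy' hne
  simp only [coe_range, Set.mem_Iio] at hy hy'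
  exact Nat.isCoprime_iff_coprime.2 (mm_coprime (by omega) (by omega) hne)

lemma cast_desc (z w : ℕ) : ((z.descFactorial w : ℕ) : ℤ) = ∏ j ∈ range w, ((z : ℤ) - j) := by
  induction w with
  | zero => simp
  | succ w ih =>
    rw [Nat.descFactorial_succ, prod_range_succ, ← ih]
    rcases le_or_gt w z with h | h
    · push_cast [h]; ring
    · rw [Nat.descFactorial_of_lt h]; simp

lemma prime_dvd_desc {l z w : ℕ} (hl : l.Prime) (h : l ∣ z.descFactorial w) :
    ∃ j < w, (l : ℤ) ∣ (z : ℤ) - j := by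
  have h1 : (l : ℤ) ∣ ∏ j ∈ range w, ((z : ℤ) - j) := by
    rw [← cast_desc]; exact Int.natCast_dvd_natCast.2 h
  obtain ⟨j, hj, h2⟩ := (Nat.prime_iff_prime_int.1 hl).exists_mem_finset_dvd h1
  exact ⟨j, mem_range.1 hj, h2⟩

lemma dvd_desc {m z x w : ℕ} (hx : x < w) (h : (m : ℤ) ∣ (z : ℤ) - x) :
    (m : ℤ) ∣ ((z.descFactorial w : ℕ) : ℤ) := by
  rw [cast_desc]
  exact h.trans (dvd_prod_of_mem (fun j : ℕ => (z : ℤ) - j) (mem_range.2 hx))

lemma dvd_of_primes {m z x w : ℕ} (hm : m ∣ z.descFactorial w) (hx : x < w)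
    (h : ∀ l : ℕ, l.Prime → l ∣ m → w ≤ l ∧ (l : ℤ) ∣ (z : ℤ) - x) : (m : ℤ) ∣ (z : ℤ) - x := by
  have h1 : (m : ℤ) ∣ ∏ j ∈ range w, ((z : ℤ) - j) := by
    rw [← cast_desc]; exact Int.natCast_dvd_natCast.2 hm
  rw [← mul_prod_erase _ _ (mem_range.2 hx)] at h1
  refine IsCoprime.dvd_of_dvd_mul_right ?_ h1
  refine IsCoprime.prod_right fun j hj => ?_
  rw [mem_erase, mem_range] at hj
  rw [Int.isCoprime_iff_gcd_eq_one, Int.gcd_eq_natAbs, Int.natAbs_natCast]
  refine Nat.coprime_of_dvd fun l hl a1 a2 => hj.1 ?_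
  obtain ⟨b1, b2⟩ := h l hl a1
  have a3 : (l : ℤ) ∣ (z : ℤ) - j := Int.natCast_dvd.2 a2
  have a4 := dvd_sub b2 a3
  exact eq_of_dvd_sub (l := l) (by omega) (by omega) (dvd_of_eq a4 (by ring))

section core

variable {β : Type} [Fintype β] (b : ℕ) (P : ℕ → (β → ℕ) → ℤ) (T : ℕ → ℕ)

/-- The quantifier-free substitute of the bounded quantifier. -/
def Good (w : ℕ) (z : β → ℕ) : Prop :=
  (∀ i, z i < (qq (T w)).choose b) ∧ (((qq (T w)).choose b : ℤ) ∣ P (qq (T w)) z) ∧
    (∀ i, (qq (T w)).choose b ∣ (z i).descFactorial w) ∧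
    (w = 0 ∨ (w ≠ 0 ∧ ∑ i, (z i).descFactorial (w - 1) % (qq (T w)).choose b ≠ 0))

variable {b P T}
variable (hcong : ∀ (n : ℤ) (y y' : ℕ) (x x' : β → ℕ), n ∣ (y : ℤ) - y' →
    (∀ i, n ∣ (x i : ℤ) - x' i) → n ∣ P y x - P y' x')
  (huniq : ∀ y x x', P y x = 0 → P y x' = 0 → x = x')
  (hT : ∀ w, b + w + 3 ≤ T w)
  (hbound : ∀ w y x, y < b → (∀ i, x i < w) → |P y x| ≤ T w)

include hcong huniq hT hbound

lemma Good.sol {w : ℕ} {z : β → ℕ} (h : Good b P T w z) {y : ℕ} (hy : y < b) :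
    ∃ x : β → ℕ, P y x = 0 ∧ (∀ i, x i < w) ∧ ∀ i, (mm (T w) y : ℤ) ∣ (z i : ℤ) - x i := by
  obtain ⟨-, h2, h3, -⟩ := h
  have hTw := hT w
  have hyT : y < T w := by omega
  have hbT : b ≤ T w := by omega
  have key : ∀ l : ℕ, l.Prime → l ∣ mm (T w) y →
      ∃ x : β → ℕ, P y x = 0 ∧ (∀ i, x i < w) ∧ ∀ i, (l : ℤ) ∣ (z i : ℤ) - x i := by
    intro l hl hlm
    have hlN : l ∣ (qq (T w)).choose b := hlm.trans (mm_dvd_choose hbT hy)
    choose x hx1 hx2 using fun i => prime_dvd_desc hl (hlN.trans (h3 i))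
    refine ⟨x, ?_, hx1, hx2⟩
    have a1 := hcong l (qq (T w)) y z x ((Int.natCast_dvd_natCast.2 hlm).trans (mm_dvd hyT)) hx2
    have a2 : (l : ℤ) ∣ P (qq (T w)) z := (Int.natCast_dvd_natCast.2 hlN).trans h2
    have a3 : (l : ℤ) ∣ P y x := by
      have := dvd_sub a2 a1
      exact dvd_of_eq this (by ring)
    have a4 := hbound w y x hy hx1
    have a5 := mm_prime hyT hl hlm
    exact Int.eq_zero_of_abs_lt_dvd a3 (by omega)
  obtain ⟨l, hl, hlm⟩ := Nat.exists_prime_and_dvd (one_lt_mm hyT (by omega)).ne'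
  obtain ⟨x, hx0, hx1, -⟩ := key l hl hlm
  refine ⟨x, hx0, hx1, fun i => ?_⟩
  refine dvd_of_primes ((mm_dvd_choose hbT hy).trans (h3 i)) (hx1 i) fun l' hl' hlm' => ?_
  obtain ⟨x', hx0', -, hx2'⟩ := key l' hl' hlm'
  have := mm_prime hyT hl' hlm'
  exact ⟨by omega, huniq y _ _ hx0' hx0 ▸ hx2' i⟩

lemma Good.minimal {w w' : ℕ} {z z' : β → ℕ} (h : Good b P T w z) (h' : Good b P T w' z') :
    w ≤ w' := by
  by_contra hc
  have hTw := hT w
  rcases h.2.2.2 with h0 | ⟨h0, h1⟩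
  · omega
  apply h1
  refine Finset.sum_eq_zero fun i _ => ?_
  rw [← Nat.dvd_iff_mod_eq_zero, ← Int.natCast_dvd_natCast]
  refine choose_dvd (by omega) fun y hy => ?_
  obtain ⟨x, hx0, -, hx2⟩ := h.sol hcong huniq hT hbound hy
  obtain ⟨x', hx0', hx1', -⟩ := h'.sol hcong huniq hT hbound hy
  have e := huniq y _ _ hx0 hx0'
  subst e
  exact dvd_desc (by have := hx1' i; omega) (hx2 i)

lemma Good.unique {w w' : ℕ} {z z' : β → ℕ} (h : Good b P T w z) (h' : Good b P T w' z') :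
    w = w' ∧ z = z' := by
  have e : w = w' := le_antisymm (h.minimal hcong huniq hT hbound h')
    (h'.minimal hcong huniq hT hbound h)
  subst e
  refine ⟨rfl, funext fun i => ?_⟩
  have hTw := hT w
  refine eq_of_dvd_sub (h.1 i) (h'.1 i) (choose_dvd (by omega) fun y hy => ?_)
  obtain ⟨x, hx0, -, hx2⟩ := h.sol hcong huniq hT hbound hy
  obtain ⟨x', hx0', -, hx2'⟩ := h'.sol hcong huniq hT hbound hy
  have e := huniq y _ _ hx0 hx0'
  subst e
  have := dvd_sub (hx2 i) (hx2' i)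
  exact dvd_of_eq this (by ring)

omit huniq hbound in
lemma exists_good (h : ∀ y < b, ∃ x, P y x = 0) : ∃ w z, Good b P T w z := by
  classical
  choose! X hX using h
  set w : ℕ := (range b ×ˢ (univ : Finset β)).sup (fun yi => X yi.1 yi.2 + 1) with hw
  have hlt : ∀ y < b, ∀ i, X y i < w := fun y hy i =>
    Finset.le_sup (f := fun yi : ℕ × β => X yi.1 yi.2 + 1) (b := (y, i))
      (by simp [hy])
  have hTw := hT w
  have hbT : b ≤ T w := by omega
  have hcr : ∀ i, ∃ z < (qq (T w)).choose b, ∀ y < b, (mm (T w) y : ℤ) ∣ (z : ℤ) - X y i := by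
    intro i
    have hs : ∀ y ∈ range b, mm (T w) y ≠ 0 := fun y hy => by
      have := one_lt_mm (t := T w) (y := y) (by rw [mem_range] at hy; omega) (by omega); omega
    have pp : Set.Pairwise (range b : Set ℕ) (Function.onFun Nat.Coprime (mm (T w))) := by
      intro y hy y' hy' hne
      simp only [coe_range, Set.mem_Iio] at hy hy'
      exact mm_coprime (by omega) (by omega) hne
    refine ⟨Nat.chineseRemainderOfFinset (fun y => X y i) (mm (T w)) (range b) hs pp, ?_,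
      fun y hy => ?_⟩
    · rw [← prod_mm hbT]; exact Nat.chineseRemainderOfFinset_lt_prod _ _ hs pp
    · exact (Nat.modEq_iff_dvd.1
        ((Nat.chineseRemainderOfFinset (fun y => X y i) (mm (T w)) (range b) hs pp).2 y
          (mem_range.2 hy)).symm)
  choose z hz1 hz2 using hcr
  refine ⟨w, z, hz1, choose_dvd hbT fun y hy => ?_, fun i => ?_, ?_⟩
  · have := hcong _ (qq (T w)) y z (X y) (mm_dvd (by omega)) (fun i => hz2 i y hy)
    rwa [hX y hy, sub_zero] at this
  · rw [← Int.natCast_dvd_natCast]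
    exact choose_dvd hbT fun y hy => dvd_desc (hlt y hy i) (hz2 i y hy)
  · by_cases h0 : w = 0
    · exact Or.inl h0
    refine Or.inr ⟨h0, fun hs => ?_⟩
    have hne : (range b ×ˢ (univ : Finset β)).Nonempty := by
      by_contra hc
      rw [not_nonempty_iff_eq_empty] at hc
      rw [hc] at hw
      exact h0 (by simpa using hw)
    obtain ⟨⟨y, i⟩, hyi, e⟩ := Finset.exists_mem_eq_sup _ hne (fun yi : ℕ × β => X yi.1 yi.2 + 1)
    rw [← hw] at e
    have hy : y < b := by simpa using hyi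
    rw [Finset.sum_eq_zero_iff] at hs
    have hd := (Nat.dvd_iff_mod_eq_zero ..).2 (hs i (mem_univ i))
    obtain ⟨l, hl, hlm⟩ :=
      Nat.exists_prime_and_dvd (one_lt_mm (t := T w) (y := y) (by omega) (by omega)).ne'
    obtain ⟨j, hj, a1⟩ := prime_dvd_desc hl ((hlm.trans (mm_dvd_choose hbT hy)).trans hd)
    have a2 := (Int.natCast_dvd_natCast.2 hlm).trans (hz2 i y hy)
    have a3 := dvd_sub a1 a2
    have a4 := mm_prime (t := T w) (y := y) (by omega) hl hlm
    simp only at e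
    have := eq_of_dvd_sub (l := l) (i := X y i) (j := j) (by omega) (by omega)
      (dvd_of_eq a3 (by ring))
    omega

end core

lemma poly_decomp {α : Type} {p : (α → ℕ) → ℤ} (hp : IsPoly p) :
    ∃ f g : (α → ℕ) → ℕ, SFfn f ∧ SFfn g ∧ Monotone f ∧ Monotone g ∧ ∀ v, p v = f v - g v := by
  induction hp with
  | proj i =>
    exact ⟨fun v => v i, fun _ => 0, SFfn.proj i, SFfn.const 0, fun _ _ h => h i,
      monotone_const, fun v => by simp⟩
  | const n =>
    exact ⟨fun _ => n.toNat, fun _ => (-n).toNat, SFfn.const _, SFfn.const _, monotone_const,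
      monotone_const, fun v => by simp⟩
  | sub _ _ ih1 ih2 =>
    obtain ⟨f, g, a1, a2, a3, a4, a5⟩ := ih1
    obtain ⟨f', g', b1, b2, b3, b4, b5⟩ := ih2
    exact ⟨fun v => f v + g' v, fun v => g v + f' v, a1.add b2, a2.add b1, a3.add b4, a4.add b3,
      fun v => by simp only [a5, b5]; push_cast; ring⟩
  | mul _ _ ih1 ih2 =>
    obtain ⟨f, g, a1, a2, a3, a4, a5⟩ := ih1
    obtain ⟨f', g', b1, b2, b3, b4, b5⟩ := ih2
    exact ⟨fun v => f v * f' v + g v * g' v, fun v => f v * g' v + g v * f' v,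
      (a1.mul b1).add (a2.mul b2), (a1.mul b2).add (a2.mul b1),
      (a3.mul' b3).add (a4.mul' b4), (a3.mul' b4).add (a4.mul' b3),
      fun v => by simp only [a5, b5]; push_cast; ring⟩

lemma poly_cong {α : Type} {p : (α → ℕ) → ℤ} (hp : IsPoly p) (n : ℤ) (u u' : α → ℕ)
    (h : ∀ i, n ∣ (u i : ℤ) - u' i) : n ∣ p u - p u' := by
  induction hp with
  | proj i => exact h i
  | const n => simp
  | sub _ _ ih1 ih2 =>
    have := dvd_sub ih1 ih2
    exact dvd_of_eq this (by ring)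
  | @mul f g _ _ ih1 ih2 =>
    have := dvd_add (ih1.mul_right (g u)) (ih2.mul_left (f u'))
    exact dvd_of_eq this (by ring)

theorem ballSF (hp : PowSF) : BallSF := by
  intro α _ S b hS hb
  obtain ⟨β, hβ, p, hpoly, h1, h2⟩ := hS
  have := Fintype.ofFinite β
  obtain ⟨f, g, hf, hg, mf, mg, e⟩ := poly_decomp hpoly
  let pt : (α → ℕ) → ℕ → (β → ℕ) → (Option α ⊕ β → ℕ) :=
    fun v y x => Sum.elim (fun o => o.elim y v) x
  let P : (α → ℕ) → ℕ → (β → ℕ) → ℤ := fun v y x => p (fun o => o.elim y v) x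
  have eP : ∀ v y x, P v y x = f (pt v y x) - g (pt v y x) := fun v y x => e (pt v y x)
  let T : (α → ℕ) → ℕ → ℕ := fun v w =>
    b v + w + 3 + f (pt v (b v) (fun _ => w)) + g (pt v (b v) (fun _ => w))
  have hcong : ∀ v (n : ℤ) (y y' : ℕ) (x x' : β → ℕ), n ∣ (y : ℤ) - y' →
      (∀ i, n ∣ (x i : ℤ) - x' i) → n ∣ P v y x - P v y' x' := by
    intro v n y y' x x' a1 a2
    refine poly_cong hpoly n (pt v y x) (pt v y' x') ?_
    rintro ((_ | i) | i)
    · exact a1
    · simp [pt]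
    · exact a2 i
  have huniq : ∀ v y x x', P v y x = 0 → P v y x' = 0 → x = x' := fun v y x x' => h2 _ x x'
  have hT : ∀ v w, b v + w + 3 ≤ T v w := fun v w => by simp only [T]; omega
  have hbound : ∀ v w y x, y < b v → (∀ i, x i < w) → |P v y x| ≤ T v w := by
    intro v w y x hy hx
    have hle : pt v y x ≤ pt v (b v) (fun _ => w) := by
      rintro ((_ | i) | i)
      · exact hy.le
      · exact le_rfl
      · exact (hx i).le
    have a1 := mf hle
    have a2 := mg hle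
    rw [eP, abs_le]
    simp only [T]
    constructor <;> omega
  -- the single-fold description
  have hpt : ∀ {F : (Option α ⊕ β → ℕ) → ℕ} (_ : SFfn F) {y : (α ⊕ Option β → ℕ) → ℕ}
      {x : β → (α ⊕ Option β → ℕ) → ℕ} (_ : SFfn y) (_ : ∀ i, SFfn (x i)),
      SFfn (fun u : α ⊕ Option β → ℕ => F (pt (fun i => u (inl i)) (y u) (fun i => x i u))) := by
    intro F hF y x hy hx
    have := hF.comp (α := α ⊕ Option β)
      (g := Sum.elim (fun o => o.elim y (fun i u => u (inl i))) x) (by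
        rintro ((_ | i) | i)
        · exact hy
        · exact SFfn.proj _
        · exact hx i)
    refine this.congr fun u => congrArg F (funext ?_)
    rintro ((_ | i) | i) <;> rfl
  have hb' : SFfn (fun u : α ⊕ Option β → ℕ => b (fun i => u (inl i))) := hb.rename inl
  have hw : SFfn (fun u : α ⊕ Option β → ℕ => u (inr none)) := SFfn.proj _
  have hz : ∀ i, SFfn (fun u : α ⊕ Option β → ℕ => u (inr (some i))) := fun i => SFfn.proj _
  have hT' : SFfn (fun u : α ⊕ Option β → ℕ => T (fun i => u (inl i)) (u (inr none))) :=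
    (((hb'.add hw).add (SFfn.const 3)).add (hpt hf hb' fun _ => hw)).add (hpt hg hb' fun _ => hw)
  have hq : SFfn (fun u : α ⊕ Option β → ℕ => qq (T (fun i => u (inl i)) (u (inr none)))) :=
    ((hT'.factorial hp).pow_const 2).sub (SFfn.const 1)
  have hN := SFfn.choose hp hq hb'
  have hG : SF (fun u : α ⊕ Option β → ℕ => Good (b (fun i => u (inl i))) (P (fun i => u (inl i)))
      (T (fun i => u (inl i))) (u (inr none)) (fun i => u (inr (some i)))) := by
    refine SF.and (SF.forall_finite fun i => SF.lt (hz i) hN) (SF.and ?_ (SF.and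
      (SF.forall_finite fun i => SF.dvd hN (SFfn.descFactorial hp (hz i) hw))
      (SF.or (SF.eq hw (SFfn.const 0)) (SF.and (SF.ne hw (SFfn.const 0)) (SF.ne
        (SFfn.sum _ fun i => (SFfn.descFactorial hp (hz i) (hw.sub (SFfn.const 1))).mod hN)
        (SFfn.const 0))) fun v a b => b.1 a)))
    refine (SF.modEq (hpt hg hq hz) (hpt hf hq hz) hN).congr fun u => ?_
    rw [Nat.modEq_iff_dvd, eP]
  have := SF.exuSum (γ := Option β)
    (S := fun v W => Good (b v) (P v) (T v) (W none) (fun i => W (some i))) hG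
    (fun v W W' a a' => by
      obtain ⟨e1, e2⟩ := a.unique (hcong v) (huniq v) (hT v) (hbound v) a'
      funext o
      cases o with
      | none => exact e1
      | some i => exact congrFun e2 i)
  refine this.congr fun v => ⟨fun ⟨W, hW⟩ y hy => ?_, fun h => ?_⟩
  · obtain ⟨x, hx, -⟩ := hW.sol (hcong v) (huniq v) (hT v) (hbound v) hy
    exact (h1 (fun o => o.elim y v)).2 ⟨x, hx⟩
  · obtain ⟨w, z, hwz⟩ := exists_good (hcong v) (hT v)
      (fun y hy => (h1 (fun o => o.elim y v)).1 (h y hy))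
    exact ⟨fun o => o.elim w z, hwz⟩

end Crest.Agent.R323
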