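import Crest.Agent.R323.Basic

/-! Primitive recursive functions and recursively enumerable sets are single-fold Diophantine,
given exponentiation and bounded universal quantification. -/

set_option autoImplicit false

namespace Crest.Agent.R323

open Sum

lemma SF.exLeast (hb : BallSF) {α : Type} [Finite α] {S : (α → ℕ) → ℕ → Prop}
    (h : SF (fun u : Option α → ℕ => S (fun i => u (some i)) (u none)))
    (h' : SF (fun u : Option α → ℕ => ¬ S (fun i => u (some i)) (u none))) :
    SF (fun v => ∃ x, S v x) := by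
  have h1 : SF (fun u : Option α → ℕ => ∀ y < u none, ¬ S (fun i => u (some i)) y) :=
    hb (Option α) (fun u y => ¬ S (fun i => u (some i)) y) (fun u => u none)
      (h'.rename (γ := Option (Option α)) (fun o => o.elim none (fun i => some (some i))))
      (SFfn.proj none)
  have h2 := SF.exu (S := fun v x => S v x ∧ ∀ y < x, ¬ S v y) (h.and h1)
    (fun v x y a b => by
      rcases lt_trichotomy x y with c | c | c
      · exact (b.2 x c a.1).elim
      · exact c
      · exact (a.2 y c b.1).elim)
  refine h2.congr fun v => ⟨fun ⟨x, hx, _⟩ => ⟨x, hx⟩, fun hx => ?_⟩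
  classical
  exact ⟨Nat.find hx, Nat.find_spec hx, fun y hy => Nat.find_min hx hy⟩

lemma digits_unique (B : ℕ) : ∀ (m s s' : ℕ), s < B ^ m → s' < B ^ m →
    (∀ i < m, s / B ^ i % B = s' / B ^ i % B) → s = s' := by
  intro m
  induction m with
  | zero => intro s s' h h' _; simp at h h'; omega
  | succ m ih =>
    intro s s' h h' e
    have hB : 0 < B := by
      rcases Nat.eq_zero_or_pos B with rfl | hB
      · simp at h
      · exact hB
    have e0 := e 0 (Nat.succ_pos m)
    simp only [pow_zero, Nat.div_one] at e0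
    have e1 : s / B = s' / B := by
      apply ih
      · exact (Nat.div_lt_iff_lt_mul hB).2 (by rwa [← pow_succ])
      · exact (Nat.div_lt_iff_lt_mul hB).2 (by rwa [← pow_succ])
      · intro i hi
        have := e (i + 1) (by omega)
        rwa [pow_succ', ← Nat.div_div_eq_div_mul, ← Nat.div_div_eq_div_mul] at this
    rw [← Nat.div_add_mod s B, ← Nat.div_add_mod s' B, e0, e1]

lemma digits_exists (B : ℕ) : ∀ (m : ℕ) (a : ℕ → ℕ), (∀ i < m, a i < B) →
    ∃ s, s < B ^ m ∧ ∀ i < m, s / B ^ i % B = a i := by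
  intro m
  induction m with
  | zero => intro a _; exact ⟨0, by simp, fun i hi => by omega⟩
  | succ m ih =>
    intro a ha
    obtain ⟨s, hs, e⟩ := ih (fun i => a (i + 1)) (fun i hi => ha (i + 1) (by omega))
    have h0 := ha 0 (Nat.succ_pos m)
    have hB : 0 < B := by omega
    refine ⟨a 0 + B * s, ?_, fun i hi => ?_⟩
    · rw [pow_succ']
      have : B * (s + 1) ≤ B * B ^ m := Nat.mul_le_mul_left _ hs
      nlinarith
    · rcases i with _ | i
      · simp [Nat.mod_eq_of_lt h0]
      · rw [pow_succ', ← Nat.div_div_eq_div_mul, Nat.add_mul_div_left _ _ hB,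
          Nat.div_eq_of_lt h0, zero_add]
        exact e i (by omega)

lemma SFfn.dig (hp : PowSF) {δ : Type} {s B i : (δ → ℕ) → ℕ} (hs : SFfn s) (hB : SFfn B)
    (hi : SFfn i) : SFfn (fun v => s v / B v ^ i v % B v) :=
  (hs.div (SFfn.pow hp hB hi)).mod hB

lemma SFfn.subst₂ {α δ : Type} [Finite α] {g : (α → ℕ) → ℕ → ℕ → ℕ}
    (hg : SFfn (fun u : Option (Option α) → ℕ =>
      g (fun i => u (some (some i))) (u (some none)) (u none)))
    (r : α → δ) {x y : (δ → ℕ) → ℕ} (hx : SFfn x) (hy : SFfn y) :
    SFfn (fun w => g (fun i => w (r i)) (x w) (y w)) :=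
  SFfn.comp hg (g := fun o => o.elim y (fun o' => o'.elim x (fun i w => w (r i))))
    (fun o => by
      rcases o with _ | _ | i
      · exact hy
      · exact hx
      · exact SFfn.proj (r i))

lemma SFfn.natRec (hp : PowSF) (hb : BallSF) {α : Type} [Finite α] {f n : (α → ℕ) → ℕ}
    {g : (α → ℕ) → ℕ → ℕ → ℕ} (hf : SFfn f) (hn : SFfn n)
    (hg : SFfn (fun u : Option (Option α) → ℕ =>
      g (fun i => u (some (some i))) (u (some none)) (u none))) :
    SFfn (fun v => Nat.rec (f v) (fun y IH => g v y IH) (n v)) := by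
  -- variables: `inl none` the value, `inl (some i)` the arguments, `inr false` the base,
  -- `inr true` the code of the sequence
  let r : α → Option α ⊕ Bool := fun i => inl (some i)
  have hN : SFfn (fun w : Option α ⊕ Bool → ℕ => n (fun i => w (r i))) := hn.rename r
  have hF : SFfn (fun w : Option α ⊕ Bool → ℕ => f (fun i => w (r i))) := hf.rename r
  have c1 : SF (fun w : Option α ⊕ Bool → ℕ =>
      w (inr true) < w (inr false) ^ (n (fun i => w (r i)) + 1)) :=
    SF.lt (SFfn.proj _) (SFfn.pow hp (SFfn.proj _) (hN.add (SFfn.const 1)))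
  have c2 : SF (fun w : Option α ⊕ Bool → ℕ =>
      w (inr true) / w (inr false) ^ 0 % w (inr false) = f (fun i => w (r i))) :=
    SF.eq (SFfn.dig hp (SFfn.proj _) (SFfn.proj _) (SFfn.const 0)) hF
  have c3 : SF (fun w : Option α ⊕ Bool → ℕ => ∀ y < n (fun i => w (r i)),
      w (inr true) / w (inr false) ^ (y + 1) % w (inr false) =
        g (fun i => w (r i)) y (w (inr true) / w (inr false) ^ y % w (inr false))) :=
    hb _ (fun w y => w (inr true) / w (inr false) ^ (y + 1) % w (inr false) =
        g (fun i => w (r i)) y (w (inr true) / w (inr false) ^ y % w (inr false))) _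
      (SF.eq (SFfn.dig hp (SFfn.proj (some (inr true))) (SFfn.proj (some (inr false)))
          ((SFfn.proj none).add (SFfn.const 1)))
        (SFfn.subst₂ hg (fun i => some (r i)) (SFfn.proj none)
          (SFfn.dig hp (SFfn.proj (some (inr true))) (SFfn.proj (some (inr false)))
            (SFfn.proj none)))) hN
  have c4 : SF (fun w : Option α ⊕ Bool → ℕ => ∃ y, y < n (fun i => w (r i)) + 1 ∧
      w (inr true) / w (inr false) ^ y % w (inr false) + 1 = w (inr false)) := by
    have a1 : SFfn (fun u : Option (Option α ⊕ Bool) → ℕ =>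
        n (fun i => u (some (r i))) + 1) := (hn.rename fun i => some (r i)).add (SFfn.const 1)
    have a2 : SFfn (fun u : Option (Option α ⊕ Bool) → ℕ =>
        u (some (inr true)) / u (some (inr false)) ^ u none % u (some (inr false)) + 1) :=
      (SFfn.dig hp (SFfn.proj (some (inr true))) (SFfn.proj (some (inr false)))
            (SFfn.proj none)).add (SFfn.const 1)
    refine SF.exLeast hb (S := fun w y => y < n (fun i => w (r i)) + 1 ∧
      w (inr true) / w (inr false) ^ y % w (inr false) + 1 = w (inr false))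
      ((SF.lt (SFfn.proj none) a1).and (SF.eq a2 (SFfn.proj _))) ?_
    refine (SF.or (SF.le a1 (SFfn.proj none))
      ((SF.lt (SFfn.proj none) a1).and (SF.ne a2 (SFfn.proj (some (inr false)))))
      (fun v a b => by omega)).congr fun v => ?_
    constructor
    · rintro (a | ⟨a, b⟩) ⟨c, d⟩
      · exact absurd c (Nat.not_lt.2 a)
      · exact b d
    · intro a
      by_cases c : v none < n (fun i => v (some (r i))) + 1
      · exact Or.inr ⟨c, fun d => a ⟨c, d⟩⟩
      · exact Or.inl (by omega)
  have c5 : SF (fun w : Option α ⊕ Bool → ℕ => w (inl none) =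
      w (inr true) / w (inr false) ^ (n (fun i => w (r i))) % w (inr false)) :=
    SF.eq (SFfn.proj _) (SFfn.dig hp (SFfn.proj _) (SFfn.proj _) hN)
  -- the digits are forced
  have forced : ∀ (v : α → ℕ) (B s : ℕ), s / B ^ 0 % B = f v →
      (∀ y < n v, s / B ^ (y + 1) % B = g v y (s / B ^ y % B)) →
      ∀ i < n v + 1, s / B ^ i % B =
        (Nat.rec (f v) (fun y IH => g v y IH) i : ℕ) := by
    intro v B s h0 h1 i
    induction i with
    | zero => intro _; exact h0
    | succ i ih =>
      intro hi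
      rw [h1 i (by omega), ih (by omega)]
  have main := SF.exuSum (γ := Bool) (S := fun (u : Option α → ℕ) (w : Bool → ℕ) =>
    w true < w false ^ (n (fun i => u (some i)) + 1) ∧
    w true / w false ^ 0 % w false = f (fun i => u (some i)) ∧
    (∀ y < n (fun i => u (some i)), w true / w false ^ (y + 1) % w false =
      g (fun i => u (some i)) y (w true / w false ^ y % w false)) ∧
    (∃ y, y < n (fun i => u (some i)) + 1 ∧ w true / w false ^ y % w false + 1 = w false) ∧
    u none = w true / w false ^ (n (fun i => u (some i))) % w false)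
    (c1.and (c2.and (c3.and (c4.and c5)))) (by
      rintro u w w' ⟨a1, a2, a3, ⟨y, hy, a4⟩, -⟩ ⟨b1, b2, b3, ⟨y', hy', b4⟩, -⟩
      have fa := forced _ _ _ a2 a3
      have fb := forced _ _ _ b2 b3
      have hB : w false = w' false := by
        have p1 : w' true / w' false ^ y % w' false < w' false := Nat.mod_lt _ (by omega)
        have p2 : w true / w false ^ y' % w false < w false := Nat.mod_lt _ (by omega)
        have := fa y hy
        have := fb y hy
        have := fa y' hy'
        have := fb y' hy'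
        omega
      have hs : w true = w' true := by
        rw [← hB] at b1 fb
        exact digits_unique _ _ _ _ a1 b1 fun i hi => (fa i hi).trans (fb i hi).symm
      funext b
      cases b
      · exact hB
      · exact hs)
  refine main.congr fun u => ⟨?_, fun e => ?_⟩
  · rintro ⟨w, -, a2, a3, -, a5⟩
    rw [a5]
    exact forced _ _ _ a2 a3 _ (Nat.lt_succ_self _)
  · set v : α → ℕ := fun i => u (some i) with hv
    let a : ℕ → ℕ := fun i => Nat.rec (f v) (fun y IH => g v y IH) i
    obtain ⟨y, hy, hmax⟩ := Finset.exists_max_image (Finset.range (n v + 1)) a ⟨0, by simp⟩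
    obtain ⟨s, hs, hd⟩ := digits_exists (a y + 1) (n v + 1) a
      (fun i hi => Nat.lt_succ_of_le (hmax i (Finset.mem_range.2 hi)))
    refine ⟨fun b => b.casesOn (a y + 1) s, hs, hd 0 (by omega), fun z hz => ?_,
      ⟨y, Finset.mem_range.1 hy, ?_⟩, ?_⟩
    · show s / (a y + 1) ^ (z + 1) % (a y + 1) = g v z (s / (a y + 1) ^ z % (a y + 1))
      rw [hd (z + 1) (by omega), hd z (by omega)]
    · show s / (a y + 1) ^ y % (a y + 1) + 1 = a y + 1
      rw [hd y (Finset.mem_range.1 hy)]
    · show u none = s / (a y + 1) ^ (n v) % (a y + 1)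
      rw [hd (n v) (Nat.lt_succ_self _)]
      exact e

theorem SFfn.of_primrec' (hp : PowSF) (hb : BallSF) {n : ℕ} {f : List.Vector ℕ n → ℕ}
    (hf : Nat.Primrec' f) : SFfn (fun u : Fin n → ℕ => f (List.Vector.ofFn u)) := by
  induction hf with
  | zero => exact SFfn.const 0
  | succ =>
    exact ((SFfn.proj (0 : Fin 1)).add (SFfn.const 1)).congr fun v => by
      simp [List.Vector.head_ofFn]
  | get i => exact (SFfn.proj i).congr fun v => by simp
  | comp g _ _ ih1 ih2 => exact ih1.comp ih2
  | @prec n f g _ _ ih1 ih2 =>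
    have h1 : SFfn (fun u : Fin (n + 1) → ℕ => f (List.Vector.ofFn fun i => u i.succ)) :=
      ih1.rename Fin.succ
    have h2 := ih2.rename (γ := Option (Option (Fin (n + 1))))
      (Fin.cons (some none) (Fin.cons none fun i : Fin n => some (some i.succ)))
    have := SFfn.natRec hp hb (n := fun u : Fin (n + 1) → ℕ => u 0)
      (g := fun u y IH => g (y ::ᵥ IH ::ᵥ List.Vector.ofFn fun i : Fin n => u i.succ))
      h1 (SFfn.proj 0) (h2.congr fun v => by
        congr 1)
    exact this.congr fun v => by
      simp only [List.Vector.head_ofFn, List.Vector.tail_ofFn]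

lemma exists_primrec_of_rePred {α : Type} [Primcodable α] {p : α → Prop} (hS : REPred p) :
    ∃ F : α × ℕ → ℕ, Primrec F ∧ ∀ a, p a ↔ ∃ k, F (a, k) = 1 := by
  unfold REPred Partrec at hS
  obtain ⟨c, hc⟩ := Nat.Partrec.Code.exists_code.1 hS
  refine ⟨fun v => bif (Nat.Partrec.Code.evaln v.2 c (Encodable.encode v.1)).isSome then 1 else 0,
    ?_, fun a => ?_⟩
  · refine Primrec.cond (Primrec.option_isSome.comp ?_) (Primrec.const 1) (Primrec.const 0)
    exact Nat.Partrec.Code.primrec_evaln.comp
      ((Primrec.snd.pair (Primrec.const c)).pair (Primrec.encode.comp Primrec.fst))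
  · have e := congrFun hc (Encodable.encode a)
    simp only [Encodable.encodek] at e
    constructor
    · intro ha
      have : Encodable.encode () ∈ c.eval (Encodable.encode a) := by
        rw [e]; simp [ha]; exact ⟨(), rfl⟩
      obtain ⟨k, hk⟩ := Nat.Partrec.Code.evaln_complete.1 this
      refine ⟨k, ?_⟩
      have : (Nat.Partrec.Code.evaln k c (Encodable.encode a)).isSome = true :=
        Option.isSome_iff_exists.2 ⟨_, hk⟩
      simp [this]
    · rintro ⟨k, hk⟩
      have hk' : (Nat.Partrec.Code.evaln k c (Encodable.encode a)).isSome = true := by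
        by_contra h
        simp only [Bool.not_eq_true] at h
        simp [h] at hk
      obtain ⟨x, hx⟩ := Option.isSome_iff_exists.1 hk'
      have := Nat.Partrec.Code.evaln_sound (show x ∈ _ from hx)
      rw [e] at this
      simp at this
      exact this.1

theorem SF.of_rePred (hp : PowSF) (hb : BallSF) {n : ℕ} {S : Set (Fin n → ℕ)}
    (hS : REPred fun a => a ∈ S) : SF (fun a : Fin n → ℕ => a ∈ S) := by
  obtain ⟨F, hF, key⟩ := exists_primrec_of_rePred hS
  have hG : Primrec (fun v : List.Vector ℕ (n + 1) => F (v.tail.get, v.head)) :=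
    hF.comp ((Primrec.vector_get'.comp Primrec.vector_tail).pair Primrec.vector_head)
  have h1 := (SFfn.of_primrec' hp hb (Nat.Primrec'.of_prim hG)).rename
    (γ := Option (Fin n)) (Fin.cons none some)
  have h2 : SFfn (fun u : Option (Fin n) → ℕ => F (fun i => u (some i), u none)) := by
    refine h1.congr fun u => ?_
    simp only [List.Vector.head_ofFn, List.Vector.tail_ofFn, Fin.cons_zero, Fin.cons_succ]
    have : (List.Vector.ofFn fun i : Fin n => u (some i)).get = fun i => u (some i) :=
      funext fun i => by simp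
    rw [this]
  exact (SF.exLeast hb (S := fun a k => F (a, k) = 1)
    (SF.eq h2 (SFfn.const 1)) (SF.ne h2 (SFfn.const 1))).congr fun a => (key a).symm

lemma exists_mvPolynomial {δ : Type} {p : (δ → ℕ) → ℤ} (hp : IsPoly p) :
    ∃ P : MvPolynomial δ ℤ, ∀ u : δ → ℕ, MvPolynomial.eval (fun i => (u i : ℤ)) P = p u := by
  induction hp with
  | proj i => exact ⟨MvPolynomial.X i, fun u => by simp⟩
  | const n => exact ⟨MvPolynomial.C n, fun u => by simp⟩
  | sub _ _ ih1 ih2 =>
    obtain ⟨P, hP⟩ := ih1
    obtain ⟨Q, hQ⟩ := ih2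
    exact ⟨P - Q, fun u => by simp [hP, hQ]⟩
  | mul _ _ ih1 ih2 =>
    obtain ⟨P, hP⟩ := ih1
    obtain ⟨Q, hQ⟩ := ih2
    exact ⟨P * Q, fun u => by simp [hP, hQ]⟩

theorem SF.to_mvPolynomial {n : ℕ} {S : (Fin n → ℕ) → Prop} (h : SF S) :
    ∃ m : ℕ, 1 ≤ m ∧ ∃ P : MvPolynomial (Fin n ⊕ Fin m) ℤ, ∀ a : Fin n → ℕ,
      (S a → ∃! w : Fin m → ℕ,
        MvPolynomial.eval (Sum.elim (fun i => (a i : ℤ)) (fun j => (w j : ℤ))) P = 0) ∧
      (¬ S a → ∀ w : Fin m → ℕ,
        MvPolynomial.eval (Sum.elim (fun i => (a i : ℤ)) (fun j => (w j : ℤ))) P ≠ 0) := by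
  obtain ⟨β, hβ, p, hp, h1, h2⟩ := h
  obtain ⟨k, ⟨e⟩⟩ := Finite.exists_equiv_fin β
  have hq : IsPoly (fun u : Fin n ⊕ Fin (k + 1) → ℕ =>
      p (fun i => u (inl i)) (fun j => u (inr (e j).succ)) ^ 2 + (u (inr 0) : ℤ)) :=
    poly_add (poly_sq (hp.map inl (fun j => inr (e j).succ))) (IsPoly.proj _)
  obtain ⟨P, hP⟩ := exists_mvPolynomial hq
  have ev : ∀ (a : Fin n → ℕ) (w : Fin (k + 1) → ℕ),
      MvPolynomial.eval (Sum.elim (fun i => (a i : ℤ)) (fun j => (w j : ℤ))) P = 0 ↔
        p a (fun j => w (e j).succ) = 0 ∧ w 0 = 0 := by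
    intro a w
    have e1 := hP (Sum.elim a w)
    have e2 : (fun i => ((Sum.elim a w i : ℕ) : ℤ)) =
        Sum.elim (fun i => (a i : ℤ)) (fun j => (w j : ℤ)) := by
      funext i; cases i <;> rfl
    rw [e2] at e1
    rw [e1]
    simp only [Sum.elim_inl, Sum.elim_inr]
    constructor
    · intro h0
      have h3 : (0 : ℤ) ≤ (w 0 : ℤ) := by positivity
      have h4 := sq_nonneg (p a fun j => w (e j).succ)
      refine ⟨by nlinarith, ?_⟩
      have : (w 0 : ℤ) = 0 := by nlinarith
      exact_mod_cast this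
    · rintro ⟨h3, h4⟩
      simp [h3, h4]
  refine ⟨k + 1, by omega, P, fun a => ⟨fun ha => ?_, fun ha w hw => ?_⟩⟩
  · obtain ⟨w, hw⟩ := (h1 a).1 ha
    refine ⟨Fin.cons 0 (fun j => w (e.symm j)), (ev _ _).2 ⟨by simpa using hw, rfl⟩,
      fun w' hw' => ?_⟩
    obtain ⟨b1, b2⟩ := (ev _ _).1 hw'
    have := h2 _ _ _ b1 hw
    funext j
    refine Fin.cases b2 (fun j => ?_) j
    have := congrFun this (e.symm j)
    simpa using this
  · exact ha ((h1 a).2 ⟨_, ((ev _ _).1 hw).1⟩)

end Crest.Agent.R323
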