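import Mathlib

/-! A height function that is strictly convex along the cosets of a finite-index cyclic subgroup. -/

set_option autoImplicit false

namespace Crest.Agent.R323

open Real

section
variable {Γ : Type} [AddCommGroup Γ] (h : Γ → ℕ) (G : Γ)

/-- The point where the height ratio crosses `K`. -/
def Cross (K : ℕ) (P : Γ) : Prop := h P ≤ K * h (P - G) ∧ K * h P < h (P + G)

/-- logarithmic height difference -/
noncomputable def Dh (P : Γ) : ℝ := log (h (P + G)) - log (h P)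

variable {h G}

lemma cross_iff (h1 : ∀ P, 1 ≤ h P) {K : ℕ} (hK : 1 ≤ K) (P : Γ) :
    Cross h G K P ↔ Dh h G (P - G) ≤ log K ∧ log K < Dh h G P := by
  have p1 : ∀ P, (0 : ℝ) < h P := fun P => by exact_mod_cast h1 P
  have p2 : (0 : ℝ) < K := by exact_mod_cast hK
  unfold Cross Dh
  rw [sub_add_cancel, sub_le_iff_le_add, lt_sub_iff_add_lt, ← log_mul p2.ne' (p1 _).ne',
    ← log_mul p2.ne' (p1 _).ne', log_le_log_iff (p1 _) (mul_pos p2 (p1 _)),
    log_lt_log_iff (mul_pos p2 (p1 _)) (p1 _)]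
  norm_cast

variable {a b : ℝ}

lemma Dh_add_nat (hlo : ∀ P, a ≤ Dh h G P - Dh h G (P - G)) (P : Γ) (k : ℕ) :
    Dh h G P + a * k ≤ Dh h G (P + k • G) := by
  induction k with
  | zero => simp
  | succ k ih =>
    have := hlo (P + (k + 1) • G)
    have e : P + (k + 1) • G - G = P + k • G := by rw [succ_nsmul]; abel
    rw [e] at this
    push_cast
    linarith

lemma Dh_sub_nat (hhi : ∀ P, Dh h G P - Dh h G (P - G) ≤ b) (P : Γ) (k : ℕ) :
    Dh h G P - b * k ≤ Dh h G (P - k • G) := by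
  induction k with
  | zero => simp
  | succ k ih =>
    have := hhi (P - k • G)
    have e : P - k • G - G = P - (k + 1) • G := by rw [succ_nsmul]; abel
    rw [e] at this
    push_cast
    linarith

lemma Dh_zsmul (hlo : ∀ P, a ≤ Dh h G P - Dh h G (P - G)) (P : Γ) {m n : ℤ} (hmn : m ≤ n) :
    Dh h G (P + m • G) + a * (n - m) ≤ Dh h G (P + n • G) := by
  obtain ⟨k, rfl⟩ := Int.le.dest hmn
  have := Dh_add_nat hlo (P + m • G) k
  have e : P + m • G + k • G = P + (m + k) • G := by rw [add_zsmul, natCast_zsmul]; abel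
  rw [e] at this
  push_cast
  linarith

lemma exists_unique_cross (ha : 0 < a) (hlo : ∀ P, a ≤ Dh h G P - Dh h G (P - G)) (L : ℝ) (P : Γ) :
    ∃! n : ℤ, Dh h G (P + n • G - G) ≤ L ∧ L < Dh h G (P + n • G) := by
  have e : ∀ n : ℤ, P + n • G - G = P + (n - 1) • G := fun n => by rw [sub_zsmul, one_zsmul]; abel
  simp only [e]
  obtain ⟨m, hm⟩ := exists_nat_gt (|L - Dh h G P| / a)
  rw [div_lt_iff₀ ha, abs_lt] at hm
  obtain ⟨n, hn1, hn2⟩ := Int.exists_least_of_bdd (P := fun n : ℤ => L < Dh h G (P + n • G))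
    ⟨-m, fun z hz => by
      by_contra hc
      have := Dh_zsmul hlo P (m := z) (n := 0) (by omega)
      have h2 : (z : ℝ) < -m := by exact_mod_cast (not_le.1 hc)
      simp only [zero_zsmul, add_zero, Int.cast_zero] at this
      nlinarith⟩
    ⟨m, by
      have := Dh_zsmul hlo P (m := 0) (n := m) (by omega)
      simp only [zero_zsmul, add_zero, Int.cast_zero, Int.cast_natCast] at this
      nlinarith⟩
  refine ⟨n, ⟨?_, hn1⟩, fun n' ⟨a1, a2⟩ => le_antisymm ?_ (hn2 _ a2)⟩
  · by_contra hc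
    have := hn2 _ (not_le.1 hc)
    omega
  · by_contra hc
    have h3 : n ≤ n' - 1 := by omega
    have := Dh_zsmul hlo P h3
    have h4 : (n : ℝ) ≤ ((n' - 1 : ℤ) : ℝ) := by exact_mod_cast h3
    nlinarith

lemma ncard_cross (h1 : ∀ P, 1 ≤ h P) (ha : 0 < a) (hlo : ∀ P, a ≤ Dh h G P - Dh h G (P - G))
    {K : ℕ} (hK : 1 ≤ K) : {P | Cross h G K P}.ncard = (AddSubgroup.zmultiples G).index := by
  have hb : Function.Bijective (fun P : {P | Cross h G K P} =>
      (QuotientAddGroup.mk P.1 : Γ ⧸ AddSubgroup.zmultiples G)) := by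
    constructor
    · rintro ⟨P, hP⟩ ⟨Q, hQ⟩ e
      simp only at e
      rw [QuotientAddGroup.eq, AddSubgroup.mem_zmultiples_iff] at e
      obtain ⟨k, hk⟩ := e
      have eQ : Q = P + k • G := by rw [hk]; abel
      rw [Set.mem_ofPred_eq, cross_iff h1 hK] at hP hQ
      have := (exists_unique_cross ha hlo (log K) P).unique (y₁ := 0) (y₂ := k)
        (by simpa using hP) (eQ ▸ hQ)
      subst this
      simpa using eQ.symm
    · intro q
      obtain ⟨P, rfl⟩ := QuotientAddGroup.mk_surjective q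
      obtain ⟨n, hn, -⟩ := exists_unique_cross ha hlo (log K) P
      refine ⟨⟨P + n • G, (cross_iff h1 hK _).2 hn⟩, ?_⟩
      simp only
      rw [QuotientAddGroup.eq, AddSubgroup.mem_zmultiples_iff]
      exact ⟨-n, by rw [neg_zsmul]; abel⟩
  rw [← Nat.card_coe_set_eq, AddSubgroup.index]
  exact Nat.card_congr (Equiv.ofBijective _ hb)

lemma cross_lower (h1 : ∀ P, 1 ≤ h P) (hb : 0 < b) (hhi : ∀ P, Dh h G P - Dh h G (P - G) ≤ b)
    {L : ℝ} (hL : 4 * b ≤ L) {P : Γ} (hP : L < Dh h G P) : L ^ 2 / (8 * b) ≤ log (h P) := by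
  have key : ∀ k : ℕ, log (h (P - k • G)) + k * L - b * k ^ 2 ≤ log (h P) := by
    intro k
    induction k with
    | zero => simp
    | succ k ih =>
      have a1 := Dh_sub_nat hhi P (k + 1)
      have e : P - (k + 1) • G + G = P - k • G := by rw [succ_nsmul]; abel
      have a2 : Dh h G (P - (k + 1) • G) = log (h (P - k • G)) - log (h (P - (k + 1) • G)) := by
        rw [Dh, e]
      have a3 : (0 : ℝ) ≤ b * k := by positivity
      push_cast at a1 ⊢
      nlinarith
  set k := ⌊L / (2 * b)⌋₊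
  have k1 : (k : ℝ) ≤ L / (2 * b) := Nat.floor_le (by apply div_nonneg <;> linarith)
  have k2 : L / (2 * b) < k + 1 := Nat.lt_floor_add_one _
  rw [le_div_iff₀ (by positivity)] at k1
  rw [div_lt_iff₀ (by positivity)] at k2
  have a1 := key k
  have a2 : 0 ≤ log (h (P - k • G) : ℝ) := log_nonneg (by exact_mod_cast h1 _)
  have k0 : (0 : ℝ) ≤ k := Nat.cast_nonneg _
  rw [div_le_iff₀ (by positivity)]
  have a3 : (k : ℝ) * L / 2 ≤ log (h P) := by nlinarith
  have a4 : L / 4 ≤ k * b := by nlinarith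
  nlinarith

lemma cross_upper (ha : 0 < a) (hlo : ∀ P, a ≤ Dh h G P - Dh h G (P - G))
    [(AddSubgroup.zmultiples G).FiniteIndex] :
    ∃ M : ℝ, ∀ L, M ≤ L → ∀ P, Dh h G (P - G) ≤ L → L < Dh h G P →
      log (h P) ≤ (2 / a + 2) * L ^ 2 := by
  obtain ⟨M, hM⟩ := (Set.finite_range (fun q : Γ ⧸ AddSubgroup.zmultiples G =>
    |log (h q.out)| + |Dh h G q.out|)).bddAbove
  refine ⟨max M 1, fun L hL P p1 p2 => ?_⟩
  have hML : M ≤ L := (le_max_left _ _).trans hL
  have h1L : 1 ≤ L := (le_max_right _ _).trans hL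
  set P0 := (QuotientAddGroup.mk P : Γ ⧸ AddSubgroup.zmultiples G).out with hP0
  have hM0 : |log (h P0)| + |Dh h G P0| ≤ M := hM ⟨_, rfl⟩
  have b1 := le_abs_self (log (h P0))
  have b2 := le_abs_self (Dh h G P0)
  have b3 := neg_abs_le (Dh h G P0)
  have b4 := abs_nonneg (log (h P0))
  have b5 := abs_nonneg (Dh h G P0)
  have e : (QuotientAddGroup.mk P0 : Γ ⧸ AddSubgroup.zmultiples G) = QuotientAddGroup.mk P :=
    QuotientAddGroup.out_eq' _
  rw [QuotientAddGroup.eq, AddSubgroup.mem_zmultiples_iff] at e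
  obtain ⟨n, hn⟩ := e
  have eP : P = P0 + n • G := by rw [hn]; abel
  have n1 : 1 ≤ n := by
    by_contra hc
    have h3 : n ≤ 0 := by omega
    have := Dh_zsmul hlo P0 h3
    have h4 : (n : ℝ) ≤ 0 := by exact_mod_cast h3
    rw [← eP] at this
    simp only [zero_zsmul, add_zero, Int.cast_zero] at this
    nlinarith
  obtain ⟨m, rfl⟩ : ∃ m : ℕ, n = m + 1 := ⟨(n - 1).toNat, by omega⟩
  have e1 : P - G = P0 + (m : ℤ) • G := by rw [eP, add_zsmul, one_zsmul]; abel
  rw [e1] at p1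
  have m1 := Dh_zsmul hlo P0 (m := 0) (n := m) (by omega)
  simp only [zero_zsmul, add_zero, Int.cast_zero, Int.cast_natCast, sub_zero] at m1
  have key : ∀ j : ℕ, j ≤ m + 1 → log (h (P0 + (j : ℤ) • G)) ≤ M + j * L := by
    intro j
    induction j with
    | zero => intro _; simp; linarith
    | succ j ih =>
      intro hj
      have c1 := ih (by omega)
      have h3 : (j : ℤ) ≤ m := by omega
      have c2 := Dh_zsmul hlo P0 h3
      have h4 : (j : ℝ) ≤ m := by exact_mod_cast h3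
      have c3 : Dh h G (P0 + (j : ℤ) • G) =
          log (h (P0 + ((j + 1 : ℕ) : ℤ) • G)) - log (h (P0 + (j : ℤ) • G)) := by
        rw [Dh]; push_cast; rw [add_zsmul, one_zsmul, add_assoc]
      simp only [Int.cast_natCast] at c2
      push_cast at c3 ⊢
      nlinarith
  have c := key (m + 1) le_rfl
  push_cast at c
  rw [← eP] at c
  have m2 : (m : ℝ) ≤ 2 / a * L := by
    rw [div_mul_eq_mul_div, le_div_iff₀ ha]; linarith
  have m3 : (m : ℝ) * L ≤ 2 / a * L * L := mul_le_mul_of_nonneg_right m2 (by linarith)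
  nlinarith

theorem cross_growth (h1 : ∀ P, 1 ≤ h P) (ha : 0 < a) (hb : 0 < b)
    (hlo : ∀ P, a ≤ Dh h G P - Dh h G (P - G)) (hhi : ∀ P, Dh h G P - Dh h G (P - G) ≤ b)
    [(AddSubgroup.zmultiples G).FiniteIndex] :
    ∃ k A0 : ℕ, ∀ A, A0 ≤ A → ∀ P, Cross h G A P →
      (2 * A) ^ (Nat.log 2 A) ≤ h P ^ k ∧ h P ^ k < A ^ (A - 1) := by
  obtain ⟨M, hM⟩ := cross_upper ha hlo
  obtain ⟨k, hk⟩ := exists_nat_ge (32 * b)
  set C : ℝ := k * (2 / a + 2) + 1 with hC
  have hC0 : 0 < C := by positivity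
  have ev1 : ∀ᶠ x : ℝ in Filter.atTop, ‖log x‖ ≤ (1 / (2 * C)) * ‖id x‖ :=
    isLittleO_log_id_atTop.bound (by positivity)
  have ev2 : ∀ᶠ x : ℝ in Filter.atTop, max (max M (4 * b)) 1 ≤ log x :=
    tendsto_log_atTop.eventually_ge_atTop _
  have ev3 : ∀ᶠ x : ℝ in Filter.atTop, 2 ≤ x := Filter.eventually_ge_atTop _
  obtain ⟨A0, hA0⟩ := Filter.eventually_atTop.1
    (tendsto_natCast_atTop_atTop.eventually (ev1.and (ev2.and ev3)))
  refine ⟨k, A0, fun A hA P hP => ?_⟩
  obtain ⟨e1, e2, e3⟩ := hA0 A hA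
  have hA2 : 2 ≤ A := by exact_mod_cast e3
  rw [cross_iff h1 (by omega)] at hP
  set L := log (A : ℝ) with hL
  have l1 : M ≤ L := ((le_max_left _ _).trans (le_max_left _ _)).trans e2
  have l2 : 4 * b ≤ L := ((le_max_right _ _).trans (le_max_left _ _)).trans e2
  have l3 : 1 ≤ L := (le_max_right _ _).trans e2
  have u1 := hM L l1 P hP.1 hP.2
  have u2 := cross_lower h1 hb hhi l2 hP.2
  have p1 : (0 : ℝ) < h P := by exact_mod_cast h1 P
  have k0 : (0 : ℝ) ≤ k := Nat.cast_nonneg _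
  have lg1 := log_two_gt_d9
  have lg2 := log_two_lt_d9
  constructor
  · have : ((2 * A : ℝ)) ^ (Nat.log 2 A) ≤ (h P : ℝ) ^ k := by
      rw [← log_le_log_iff (by positivity) (by positivity), log_pow, log_pow,
        log_mul (by norm_num) (by positivity), ← hL]
      have q1 : (2 : ℝ) ^ (Nat.log 2 A) ≤ A := by
        exact_mod_cast Nat.pow_log_le_self 2 (by omega : A ≠ 0)
      have q2 : (Nat.log 2 A : ℝ) * log 2 ≤ L := by
        rw [← log_pow]; exact log_le_log (by positivity) q1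
      have q0 : (0 : ℝ) ≤ Nat.log 2 A := Nat.cast_nonneg _
      have q3 : (Nat.log 2 A : ℝ) ≤ 2 * L := by nlinarith
      have q4 : (Nat.log 2 A : ℝ) * (log 2 + L) ≤ 2 * L * (2 * L) :=
        mul_le_mul q3 (by linarith) (by linarith) (by linarith)
      rw [div_le_iff₀ (by positivity)] at u2
      have q5 : 0 ≤ log (h P : ℝ) := log_nonneg (by exact_mod_cast h1 P)
      have q6 : 32 * b * log (h P : ℝ) ≤ k * log (h P : ℝ) := mul_le_mul_of_nonneg_right hk q5
      nlinarith
    exact_mod_cast this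
  · have : (h P : ℝ) ^ k < (A : ℝ) ^ (A - 1) := by
      rw [← log_lt_log_iff (by positivity) (by positivity), log_pow, log_pow, ← hL,
        Nat.cast_sub (by omega)]
      simp only [id, norm_eq_abs] at e1
      rw [abs_of_nonneg (by linarith), abs_of_nonneg (by linarith), div_mul_eq_mul_div,
        le_div_iff₀ (by positivity)] at e1
      have q1 : (k : ℝ) * log (h P) ≤ k * ((2 / a + 2) * L ^ 2) := mul_le_mul_of_nonneg_left u1 k0
      have q2 : (k : ℝ) * ((2 / a + 2) * L ^ 2) = (C - 1) * L * L := by rw [hC]; ring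
      have q3 : (C - 1) * L < (A : ℝ) - 1 := by nlinarith
      have q4 : (C - 1) * L * L < ((A : ℝ) - 1) * L := mul_lt_mul_of_pos_right q3 (by linarith)
      push_cast
      linarith
    exact_mod_cast this

end

end Crest.Agent.R323
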