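import Crest.Agent.R323.CurveDef

/-! Explicit 2-descent on `y² = x³ - 2x`. -/

set_option autoImplicit false

namespace Crest.Agent.R323

open WeierstrassCurve WeierstrassCurve.Affine

/-- If `y² = x (x² + k)` where `k` is a unit at every odd prime, then `|x|` is a square or twice
a square. -/
lemma sq_class (k x y : ℚ) (hk : ∀ p : ℕ, p.Prime → p ≠ 2 → padicValRat p k = 0) (hk0 : k ≠ 0)
    (hx : x ≠ 0) (hxk : x ^ 2 + k ≠ 0) (h : y ^ 2 = x * (x ^ 2 + k)) :
    ∃ u : ℚ, u ≠ 0 ∧ (|x| = u ^ 2 ∨ |x| = 2 * u ^ 2) := by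
  have hn : 0 < x.num.natAbs * x.den :=
    Nat.mul_pos (Int.natAbs_pos.mpr (Rat.num_ne_zero.mpr hx)) x.den_pos
  obtain ⟨a, b, ha0, hb0, hab, hsq⟩ := Nat.sq_mul_squarefree_of_pos hn
  have hden : (x.den : ℚ) ≠ 0 := by exact_mod_cast x.den_ne_zero
  have hbq : (b : ℚ) ≠ 0 := by exact_mod_cast hb0.ne'
  have haq : (a : ℚ) ≠ 0 := by exact_mod_cast ha0.ne'
  have habs : |x| = (a : ℚ) * ((b : ℚ) / x.den) ^ 2 := by
    have h1 : |x| = (x.num.natAbs : ℚ) / x.den := by
      conv_lhs => rw [← Rat.num_div_den x]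
      rw [abs_div, Nat.cast_natAbs, Int.cast_abs, abs_of_pos (a := (x.den : ℚ))]
      exact_mod_cast x.den_pos
    have h2 : ((b : ℚ) ^ 2 * a) = (x.num.natAbs : ℚ) * x.den := by exact_mod_cast hab
    rw [h1]
    field_simp
    linarith
  have hu : (b : ℚ) / x.den ≠ 0 := div_ne_zero hbq hden
  have key : ∀ p : ℕ, p.Prime → p ∣ a → p = 2 := by
    intro p hp hpa
    by_contra hp2
    have : Fact p.Prime := ⟨hp⟩
    have hva : padicValNat p a = 1 := by
      have h1 : 1 ≤ padicValNat p a := one_le_padicValNat_of_dvd ha0.ne' hpa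
      have h2 : ¬ 2 ≤ padicValNat p a := by
        intro h2
        have : p ^ 2 ∣ a := (padicValNat_dvd_iff_le ha0.ne').mpr h2
        rw [pow_two] at this
        exact hp.one_lt.ne' (Nat.isUnit_iff.mp (hsq p this))
      omega
    have hvx : padicValRat p x = 1 + 2 * padicValRat p ((b : ℚ) / x.den) := by
      have h1 : padicValRat p x = padicValRat p |x| := by
        rcases abs_choice x with h | h <;> rw [h]
        rw [padicValRat.neg]
      rw [h1, habs, padicValRat.mul haq (pow_ne_zero _ hu), padicValRat.pow, padicValRat.of_nat,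
        hva]
      norm_num
    have hvk := hk p hp hp2
    have hvy : padicValRat p (y ^ 2) = padicValRat p x + padicValRat p (x ^ 2 + k) := by
      rw [h, padicValRat.mul hx hxk]
    rw [padicValRat.pow] at hvy
    have hx2 : padicValRat p (x ^ 2) = 2 * padicValRat p x := by
      rw [padicValRat.pow]; norm_num
    have hne : padicValRat p (x ^ 2) ≠ padicValRat p k := by
      rw [hx2, hvk]; omega
    rw [padicValRat.add_eq_min hxk (pow_ne_zero _ hx) hk0 hne, hx2, hvk] at hvy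
    push_cast at hvy
    omega
  have ha2 : a ∣ 2 := by
    rw [← Nat.prod_primeFactors_of_squarefree hsq]
    have hsub : a.primeFactors ⊆ {2} := by
      intro p hp
      rw [Finset.mem_singleton]
      exact key p (Nat.prime_of_mem_primeFactors hp) (Nat.dvd_of_mem_primeFactors hp)
    have := Finset.prod_dvd_prod_of_subset _ _ (fun p : ℕ => p) hsub
    simpa using this
  refine ⟨_, hu, ?_⟩
  rcases (Nat.dvd_prime Nat.prime_two).mp ha2 with h1 | h1
  · left; rw [habs, h1]; simp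
  · right; rw [habs, h1]; simp

lemma padicValRat_two_pow {p : ℕ} (hp : p.Prime) (hp2 : p ≠ 2) (n : ℕ) :
    padicValRat p ((2 : ℚ) ^ n) = 0 := by
  have : Fact p.Prime := ⟨hp⟩
  have h2 : padicValRat p (2 : ℚ) = 0 := by
    have : padicValRat p ((2 : ℕ) : ℚ) = 0 := by
      rw [padicValRat.of_nat]
      have : Fact (Nat.Prime 2) := ⟨Nat.prime_two⟩
      rw [padicValNat_primes hp2]; rfl
    simpa using this
  rw [padicValRat.pow, h2, mul_zero]

lemma sq_ne_two (x : ℚ) : x ^ 2 ≠ 2 := by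
  intro h
  have : IsSquare (2 : ℚ) := ⟨x, by rw [← h]; ring⟩
  revert this
  norm_num

/-- A point whose abscissa is a non-zero square is divisible by two. -/
lemma halving {x y : ℚ} (h : E.Nonsingular x y) {u : ℚ} (hu : u ≠ 0) (hx : x = u ^ 2) :
    ∃ R : E.Point, Point.some x y h = R + R := by
  have heq : y ^ 2 = x ^ 3 - 2 * x := (E_nonsingular x y).mp h
  set t : ℚ := y / u with ht
  have hyt : y = t * u := by rw [ht]; field_simp
  have ht2 : t ^ 2 = u ^ 4 - 2 := by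
    have hu2 : u ^ 2 ≠ 0 := pow_ne_zero _ hu
    apply mul_left_cancel₀ hu2
    rw [hyt, hx] at heq
    linear_combination heq
  have hupos : 0 < u ^ 2 := by positivity
  have hXpos : 0 < 2 * u ^ 2 + 2 * t := by
    by_contra hneg
    have h1 : 2 * u ^ 2 + 2 * t ≤ 0 := not_lt.mp hneg
    have h2 : 0 < 2 * u ^ 2 - 2 * t := by linarith
    have h3 : (2 * u ^ 2 + 2 * t) * (2 * u ^ 2 - 2 * t) = 8 := by linear_combination (-4) * ht2
    nlinarith
  obtain ⟨w, hw0, hw⟩ : ∃ w : ℚ, w ≠ 0 ∧ w ^ 4 + 8 = 4 * u ^ 2 * w ^ 2 := by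
    obtain ⟨s, hs0, hs⟩ := sq_class 8 (2 * u ^ 2 + 2 * t) (2 * u * (2 * u ^ 2 + 2 * t))
      (fun p hp hp2 => by
        have := padicValRat_two_pow hp hp2 3
        norm_num at this ⊢
        exact this) (by norm_num) hXpos.ne' (by positivity)
      (by linear_combination (-4 * (2 * u ^ 2 + 2 * t)) * ht2)
    rw [abs_of_pos hXpos] at hs
    rcases hs with hs | hs
    · refine ⟨s, hs0, ?_⟩
      have : s ^ 4 = (s ^ 2) ^ 2 := by ring
      rw [this, ← hs]
      linear_combination 4 * ht2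
    · refine ⟨2 / s, div_ne_zero two_ne_zero hs0, ?_⟩
      have h3 : (2 / s) ^ 2 = 2 * u ^ 2 - 2 * t := by
        rw [div_pow, div_eq_iff (pow_ne_zero _ hs0)]
        linear_combination (u ^ 2 - t) * hs + 2 * ht2
      have : (2 / s) ^ 4 = ((2 / s) ^ 2) ^ 2 := by ring
      rw [this, h3]
      linear_combination 4 * ht2
  set xR : ℚ := w ^ 2 / 2 + u * w with hxR
  have hq : xR * (xR - w ^ 2) = 2 := by
    rw [hxR]; linear_combination (-1 / 4) * hw
  have hxR0 : xR ≠ 0 := by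
    intro h0; rw [h0] at hq; norm_num at hq
  have hR : E.Nonsingular xR (w * xR) := by
    rw [E_nonsingular]; linear_combination (-xR) * hq
  have hyR : w * xR ≠ 0 := mul_ne_zero hw0 hxR0
  have hy : w * xR ≠ E.negY xR (w * xR) := by
    rw [E_negY]; intro h'; apply hyR; linarith
  have hslope : E.slope xR xR (w * xR) (w * xR) = w + u := by
    rw [E_slope_self xR hyR]
    field_simp
    have : xR * 2 = w ^ 2 + 2 * u * w := by rw [hxR]; ring
    linear_combination hq + xR * this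
  have hadd := Point.add_self_of_Y_ne (W := E) (h₁ := hR) hy
  have hxx : x = E.addX xR xR (E.slope xR xR (w * xR) (w * xR)) := by
    rw [E_addX, hslope, hx, hxR]; ring
  rcases (Point.X_eq_iff (W := E) (h₁ := h)
    (h₂ := nonsingular_add hR hR fun hxy => hy hxy.right)).mp hxx with h1 | h1
  · exact ⟨_, by rw [hadd]; exact h1⟩
  · refine ⟨-Point.some _ _ hR, ?_⟩
    rw [← neg_add, hadd]; exact h1

theorem T0_add_T0 : T0 + T0 = 0 := by
  unfold T0
  exact Point.add_self_of_Y_eq (by rw [E_negY]; simp)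

lemma T0_mem : T0 ∈ AddSubgroup.closure ({T0, G0} : Set E.Point) :=
  AddSubgroup.subset_closure (by simp)

lemma G0_mem : G0 ∈ AddSubgroup.closure ({T0, G0} : Set E.Point) :=
  AddSubgroup.subset_closure (by simp)

lemma mem_of_X_eq {U : AddSubgroup E.Point} {x₁ y₁ x₂ y₂ : ℚ} {h₁ : E.Nonsingular x₁ y₁}
    {h₂ : E.Nonsingular x₂ y₂} (hx : x₁ = x₂) (hQ : Point.some x₂ y₂ h₂ ∈ U) :
    Point.some x₁ y₁ h₁ ∈ U := by
  rcases (Point.X_eq_iff (W := E) (h₁ := h₁) (h₂ := h₂)).mp hx with h | h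
  · rw [h]; exact hQ
  · rw [h]; exact U.neg_mem hQ

/-- A point whose abscissa is a square (possibly zero) is in `2E + ⟨T0, G0⟩`. -/
lemma descent_of_sq {x y : ℚ} (h : E.Nonsingular x y) {u : ℚ} (hx : x = u ^ 2) :
    ∃ R : E.Point, ∃ Q ∈ AddSubgroup.closure ({T0, G0} : Set E.Point),
      Point.some x y h = R + R + Q := by
  by_cases hu : u = 0
  · refine ⟨0, _, mem_of_X_eq (h₁ := h) (by rw [hx, hu]; simp) T0_mem, by simp⟩
  · obtain ⟨R, hR⟩ := halving h hu hx
    exact ⟨R, 0, zero_mem _, by rw [hR, add_zero]⟩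

lemma descent_of_add {P Q₀ : E.Point} (hQ₀ : Q₀ ∈ AddSubgroup.closure ({T0, G0} : Set E.Point))
    (h : ∃ R : E.Point, ∃ Q ∈ AddSubgroup.closure ({T0, G0} : Set E.Point),
      P + Q₀ = R + R + Q) :
    ∃ R : E.Point, ∃ Q ∈ AddSubgroup.closure ({T0, G0} : Set E.Point), P = R + R + Q := by
  obtain ⟨R, Q, hQ, hPQ⟩ := h
  refine ⟨R, Q - Q₀, sub_mem hQ hQ₀, ?_⟩
  rw [← add_sub_assoc, ← hPQ, add_sub_cancel_right]

lemma descent_step {x₁ y₁ x₂ y₂ : ℚ} (h₁ : E.Nonsingular x₁ y₁) (h₂ : E.Nonsingular x₂ y₂)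
    (hQ : Point.some x₂ y₂ h₂ ∈ AddSubgroup.closure ({T0, G0} : Set E.Point))
    {v : ℚ} (hv : v ≠ 0) (hxv : x₁ * x₂ = v ^ 2) :
    ∃ R : E.Point, ∃ Q ∈ AddSubgroup.closure ({T0, G0} : Set E.Point),
      Point.some x₁ y₁ h₁ = R + R + Q := by
  by_cases hx : x₁ = x₂
  · exact ⟨0, _, mem_of_X_eq (h₁ := h₁) hx hQ, by simp⟩
  · apply descent_of_add hQ
    rw [Point.add_of_X_ne hx]
    have e₁ : y₁ ^ 2 = x₁ ^ 3 - 2 * x₁ := (E_nonsingular _ _).mp h₁
    have e₂ : y₂ ^ 2 = x₂ ^ 3 - 2 * x₂ := (E_nonsingular _ _).mp h₂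
    have hsub : x₁ - x₂ ≠ 0 := sub_ne_zero.mpr hx
    refine descent_of_sq _ (u := (y₁ - E.slope x₁ x₂ y₁ y₂ * x₁) / v) ?_
    rw [E_addX, E_slope_of_X_ne _ _ hx]
    have hl' : y₂ = y₁ - (y₁ - y₂) / (x₁ - x₂) * (x₁ - x₂) := by field_simp; ring
    generalize (y₁ - y₂) / (x₁ - x₂) = l at hl' ⊢
    have hA : x₁ ^ 2 + x₁ * x₂ + x₂ ^ 2 - 2 - l ^ 2 * (x₁ + x₂) - 2 * l * (y₁ - l * x₁) = 0 := by
      apply mul_left_cancel₀ hsub
      rw [hl'] at e₂
      linear_combination e₂ - e₁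
    rw [div_pow, eq_div_iff (pow_ne_zero _ hv), ← hxv]
    linear_combination (-1 : ℚ) * e₁ - x₁ * hA

theorem two_descent (P : E.Point) :
    ∃ R : E.Point, ∃ Q ∈ AddSubgroup.closure ({T0, G0} : Set E.Point), P = R + R + Q := by
  rcases P with _ | ⟨x, y, h⟩
  · exact ⟨0, 0, zero_mem _, by rw [add_zero, add_zero]; rfl⟩
  by_cases hx0 : x = 0
  · exact descent_of_sq h (u := 0) (by rw [hx0]; simp)
  have heq : y ^ 2 = x ^ 3 - 2 * x := (E_nonsingular x y).mp h
  obtain ⟨u, hu, hxu⟩ := sq_class (-2) x y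
    (fun p hp hp2 => by
      have := padicValRat_two_pow hp hp2 1
      rw [padicValRat.neg]
      simpa using this) (by norm_num) hx0
    (fun h0 => sq_ne_two x (by linarith)) (by linear_combination heq)
  rcases abs_choice x with hab | hab <;> rw [hab] at hxu <;> rcases hxu with hxu | hxu
  · exact descent_of_sq h hxu
  · have hne : (-1 : ℚ) ≠ 0 := by norm_num
    have hmem : G0 + T0 ∈ AddSubgroup.closure ({T0, G0} : Set E.Point) := add_mem G0_mem T0_mem
    unfold G0 T0 at hmem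
    rw [Point.add_of_X_ne hne] at hmem
    refine descent_step h _ hmem (v := 2 * u) (mul_ne_zero two_ne_zero hu) ?_
    rw [E_addX, E_slope_of_X_ne _ _ hne, hxu]
    ring
  · exact descent_step h _ G0_mem hu (by linarith)
  · apply descent_of_add T0_mem
    unfold T0
    rw [Point.add_of_X_ne hx0]
    refine descent_of_sq _ (u := 1 / u) ?_
    rw [E_addX, E_slope_of_X_ne _ _ hx0]
    have hx : x = -2 * u ^ 2 := by linarith
    rw [sub_zero, sub_zero, sub_zero, div_pow, heq, hx]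
    field_simp
    ring

end Crest.Agent.R323
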