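import Crest.Agent.R323.CurveDef

/-! Approximate parallelogram law and the Northcott property for `y² = x³ - 2x` over `ℚ`. -/

set_option autoImplicit false

namespace Crest.Agent.R323

open WeierstrassCurve WeierstrassCurve.Affine Height

lemma log_H_eq (P : E.Point) : Real.log (H P) = logHeight P.xRep := by
  cases P with
  | zero =>
    rw [← Point.zero_def, H_zero, Point.xRep_zero]
    simp
  | some x y h =>
    rw [H_some, Point.xRep_some, ← logHeight₁_eq_logHeight, Rat.logHeight₁_eq_log_max]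
    rfl

lemma addSubMap_eval (v : Fin 3 → ℚ) :
    (fun i => (addSubMap E i).eval v) =
      ![v 0 ^ 2 + 4 * v 0 * v 2 + 4 * v 2 ^ 2, 2 * v 1 * v 0 - 4 * v 1 * v 2,
        v 1 ^ 2 - 4 * v 0 * v 2] := by
  ext i
  fin_cases i <;>
    simp [addSubMap, E, WeierstrassCurve.b₂, WeierstrassCurve.b₄, WeierstrassCurve.b₆,
      WeierstrassCurve.b₈] <;> ring

lemma vec3_ext {a b c a' b' c' k : ℚ} (h1 : a = k * a') (h2 : b = k * b') (h3 : c = k * c') :
    (![a, b, c] : Fin 3 → ℚ) = k • ![a', b', c'] := by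
  ext i
  fin_cases i <;> simp [h1, h2, h3]

lemma addSubMap_self (P : E.Point) :
    ∃ c : ℚ, c ≠ 0 ∧ (fun i => (addSubMap E i).eval (P.sym2x P)) = c • ((P + P).sym2x 0) := by
  cases P with
  | zero =>
    refine ⟨1, one_ne_zero, ?_⟩
    rw [← Point.zero_def, addSubMap_eval]
    simp
  | some x y h =>
    have he : y ^ 2 = x ^ 3 - 2 * x := (E_nonsingular x y).mp h
    by_cases hy : y = 0
    · have hy' : y = E.negY x y := by rw [E_negY, hy, neg_zero]
      rw [Point.add_self_of_Y_eq hy', addSubMap_eval, Point.sym2x_zero_zero,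
        Point.sym2x_some_some]
      refine ⟨(x ^ 2 + 2) ^ 2, by positivity, ?_⟩
      subst hy
      apply vec3_ext
      · simp; ring
      · simp; linear_combination (-4) * he
      · simp; ring
    · have hy' : y ≠ E.negY x y := by rw [E_negY]; intro h'; apply hy; linarith
      rw [Point.add_self_of_Y_ne hy', addSubMap_eval, Point.sym2x_some_zero,
        Point.sym2x_some_some, E_addX, E_slope_self x hy]
      refine ⟨4 * y ^ 2, by positivity, ?_⟩
      apply vec3_ext
      · simp; field_simp; linear_combination (32 * x) * he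
      · simp; linear_combination (-4) * he
      · simp; ring

lemma addSubMap_sym2x (P Q : E.Point) :
    ∃ c : ℚ, c ≠ 0 ∧
      (fun i => (addSubMap E i).eval (P.sym2x Q)) = c • ((P + Q).sym2x (P - Q)) := by
  by_cases h1 : P = Q
  · subst h1
    rw [sub_self]
    exact addSubMap_self P
  by_cases h2 : P = -Q
  · have hQ : Q = -P := by rw [h2, neg_neg]
    subst hQ
    rw [Point.sym2x_neg_right, add_neg_cancel, sub_neg_eq_add, Point.sym2x_comm 0]
    exact addSubMap_self P
  cases P with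
  | zero =>
    cases Q with
    | zero => exact absurd rfl h1
    | some x y h =>
      refine ⟨1, one_ne_zero, ?_⟩
      rw [← Point.zero_def, zero_add, zero_sub, Point.sym2x_neg_right, addSubMap_eval,
        Point.sym2x_zero_some, Point.sym2x_some_some]
      apply vec3_ext <;> simp <;> ring
  | some x₁ y₁ h₁ =>
    cases Q with
    | zero =>
      refine ⟨1, one_ne_zero, ?_⟩
      rw [← Point.zero_def, add_zero, sub_zero, addSubMap_eval,
        Point.sym2x_some_zero, Point.sym2x_some_some]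
      apply vec3_ext <;> simp <;> ring
    | some x₂ y₂ h₂ =>
      have hx : x₁ ≠ x₂ := by
        intro hx
        rcases (Point.X_eq_iff (h₁ := h₁) (h₂ := h₂)).mp hx with h | h
        · exact h1 h
        · exact h2 h
      have e₁ : y₁ ^ 2 = x₁ ^ 3 - 2 * x₁ := (E_nonsingular _ _).mp h₁
      have e₂ : y₂ ^ 2 = x₂ ^ 3 - 2 * x₂ := (E_nonsingular _ _).mp h₂
      have hd : x₁ - x₂ ≠ 0 := sub_ne_zero.mpr hx
      rw [sub_eq_add_neg, Point.neg_some, Point.add_of_X_ne hx, Point.add_of_X_ne hx,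
        addSubMap_eval, Point.sym2x_some_some, Point.sym2x_some_some, E_addX, E_addX,
        E_slope_of_X_ne _ _ hx, E_slope_of_X_ne _ _ hx, E_negY]
      refine ⟨(x₁ - x₂) ^ 2, by positivity, ?_⟩
      apply vec3_ext
      · simp only [Matrix.cons_val_zero, Matrix.cons_val]
        field_simp
        linear_combination (-(y₁ ^ 2 + (x₁ ^ 3 - 2 * x₁)) + 2 * y₂ ^ 2
            + 2 * (x₁ + x₂) * (x₁ - x₂) ^ 2) * e₁ +
          (-(y₂ ^ 2 + (x₂ ^ 3 - 2 * x₂)) + 2 * (x₁ ^ 3 - 2 * x₁)
            + 2 * (x₁ + x₂) * (x₁ - x₂) ^ 2) * e₂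
      · simp only [Matrix.cons_val_zero, Matrix.cons_val_one, Matrix.cons_val]
        field_simp
        linear_combination (-2) * e₁ + (-2) * e₂
      · simp only [Matrix.cons_val_zero, Matrix.cons_val_one, Matrix.cons_val]
        ring

theorem parallelogram : ∃ C : ℝ, ∀ P Q : E.Point,
    |Real.log (H (P + Q)) + Real.log (H (P - Q)) - 2 * (Real.log (H P) + Real.log (H Q))| ≤ C := by
  obtain ⟨C₁, hC₁⟩ := WeierstrassCurve.abs_logHeight_addSubMap_sub_two_mul_logHeight_le E
  obtain ⟨C₂, hC₂⟩ := Height.abs_logHeight_sym2_sub_le ℚ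
  have key : ∀ P Q : E.Point,
      |logHeight (P.sym2x Q) - (Real.log (H P) + Real.log (H Q))| ≤ C₂ := by
    intro P Q
    rw [log_H_eq, log_H_eq]
    have eP : P.xRep = ![P.xRep 0, P.xRep 1] := by
      ext i; fin_cases i <;> rfl
    have eQ : Q.xRep = ![Q.xRep 0, Q.xRep 1] := by
      ext i; fin_cases i <;> rfl
    have := hC₂ (a := P.xRep 0) (b := P.xRep 1) (c := Q.xRep 0) (d := Q.xRep 1)
      (by rw [← eP]; exact P.xRep_ne_zero) (by rw [← eQ]; exact Q.xRep_ne_zero)
    rw [← eP, ← eQ] at this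
    exact this
  refine ⟨C₁ + 3 * C₂, fun P Q => ?_⟩
  obtain ⟨c, hc, h⟩ := addSubMap_sym2x P Q
  have h1 := hC₁ (P.sym2x Q)
  rw [h, logHeight_smul_eq_logHeight _ hc] at h1
  have h2 := key P Q
  have h3 := key (P + Q) (P - Q)
  rw [abs_le] at h1 h2 h3 ⊢
  constructor <;> linarith [h1.1, h1.2, h2.1, h2.2, h3.1, h3.2]

lemma finite_Hq_le (B : ℕ) : {x : ℚ | Hq x ≤ B}.Finite := by
  have : {x : ℚ | Hq x ≤ B} ⊆
      (fun p : ℤ × ℕ => (p.1 : ℚ) / p.2) '' (Set.Icc (-(B : ℤ)) B ×ˢ Set.Icc 0 B) := by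
    intro x hx
    simp only [Hq, Set.mem_ofPred_eq, max_le_iff] at hx
    refine ⟨(x.num, x.den), ⟨?_, ?_⟩, Rat.num_div_den x⟩
    · have := hx.1
      constructor <;> simp only <;> omega
    · exact ⟨Nat.zero_le _, hx.2⟩
  exact (((Set.finite_Icc _ _).prod (Set.finite_Icc _ _)).image _).subset this

theorem northcott_H (B : ℕ) : {P : E.Point | H P ≤ B}.Finite := by
  have hfin : ((fun P : E.Point => P.xRep) '' {P : E.Point | H P ≤ B}).Finite := by
    refine (((finite_Hq_le B).image (fun x : ℚ => (![x, 1] : Fin 2 → ℚ))).insert ![1, 0]).subset ?_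
    rintro _ ⟨P, hP, rfl⟩
    cases P with
    | zero => exact Or.inl rfl
    | some x y h => exact Or.inr ⟨x, hP, rfl⟩
  refine Set.Finite.of_finite_fibers _ hfin ?_
  rintro _ ⟨P, -, rfl⟩
  refine (Set.toFinite {P, -P}).subset ?_
  rintro Q ⟨-, hQ⟩
  exact Point.eq_or_eq_neg_of_xRep_eq_xRep hQ

end Crest.Agent.R323
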