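import Crest.Agent.R323.CurveDef

/-! The group of rational points of `y² = x³ - 2x` is infinite, and has points of arbitrarily
large height generating a subgroup of finite index (given descent and height inputs). -/

set_option autoImplicit false

namespace Crest.Agent.R323

open WeierstrassCurve WeierstrassCurve.Affine

/-- The `2`-adic norm of the `x`-coordinate. -/
def normX : E.Point → ℚ
  | .zero => 0
  | .some x _ _ => padicNorm 2 x

lemma padicNorm_two_two : padicNorm 2 (2 : ℚ) = 1 / 2 := by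
  have := padicNorm.padicNorm_p_of_prime (p := 2)
  simpa using this

lemma normX_double (P : E.Point) (hP : 1 < normX P) : normX (P + P) = 4 * normX P := by
  cases P with
  | zero => simp [normX] at hP; linarith
  | some x y h =>
    have he : y ^ 2 = x ^ 3 - 2 * x := (E_nonsingular x y).mp h
    change 1 < padicNorm 2 x at hP
    set n := padicNorm 2 x with hn
    have hxx : padicNorm 2 (x * x) = n * n := by rw [padicNorm.mul]
    have hnn : 1 / 2 < n * n := by nlinarith
    have h1 : padicNorm 2 (x * x + 2) = n * n := by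
      rw [padicNorm.add_eq_max_of_ne (by rw [hxx, padicNorm_two_two]; exact hnn.ne'), hxx,
        padicNorm_two_two]
      exact max_eq_left hnn.le
    have h2 : padicNorm 2 (x * x + -2) = n * n := by
      rw [padicNorm.add_eq_max_of_ne
        (by rw [hxx, padicNorm.neg, padicNorm_two_two]; exact hnn.ne'), hxx, padicNorm.neg,
        padicNorm_two_two]
      exact max_eq_left hnn.le
    have h3 : padicNorm 2 (x * (x * x + -2)) = n * (n * n) := by rw [padicNorm.mul, h2]
    have hn0 : n ≠ 0 := by positivity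
    have hne : x * (x * x + -2) ≠ 0 := by
      intro h0
      rw [h0, padicNorm.zero] at h3
      exact (by positivity : n * (n * n) ≠ 0) h3.symm
    have hyy : y * y = x * (x * x + -2) := by linear_combination he
    have hy : y ≠ 0 := by
      intro h0
      rw [h0] at hyy
      exact hne (by linear_combination -hyy)
    have hy' : y ≠ E.negY x y := by rw [E_negY]; intro h'; apply hy; linarith
    rw [Point.add_self_of_Y_ne hy']
    change padicNorm 2 (E.addX x x (E.slope x x y y)) = 4 * n
    have hx : E.addX x x (E.slope x x y y) =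
        ((x * x + 2) * (x * x + 2)) / (2 * 2 * (x * (x * x + -2))) := by
      rw [E_addX, E_slope_self x hy, ← hyy]
      field_simp
      linear_combination (-8 * x) * he
    rw [hx, padicNorm.div, padicNorm.mul, h1, padicNorm.mul, h3, padicNorm.mul,
      padicNorm_two_two]
    field_simp
    ring

lemma normX_G0 : normX (G0 + G0) = 4 := by
  have hy' : (1 : ℚ) ≠ E.negY (-1) 1 := by rw [E_negY]; norm_num
  rw [G0, Point.add_self_of_Y_ne hy']
  change padicNorm 2 (E.addX (-1) (-1) (E.slope (-1) (-1) 1 1)) = 4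
  have hx : E.addX (-1) (-1) (E.slope (-1) (-1) 1 1) = ((9 : ℕ) : ℚ) / (2 * 2) := by
    rw [E_addX, E_slope_self _ one_ne_zero]
    norm_num
  rw [hx, padicNorm.div, padicNorm.mul, padicNorm_two_two,
    (padicNorm.nat_eq_one_iff (p := 2) 9).mpr (by norm_num)]
  norm_num

theorem infinite_points : Infinite E.Point := by
  have key : ∀ k : ℕ, ∃ P : E.Point, normX P = 4 ^ (k + 1) := by
    intro k
    induction k with
    | zero => exact ⟨G0 + G0, by rw [normX_G0]; norm_num⟩
    | succ k ih =>
      obtain ⟨P, hP⟩ := ih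
      refine ⟨P + P, ?_⟩
      rw [normX_double P (by rw [hP]; exact one_lt_pow₀ (by norm_num) (by omega)), hP]
      ring
  choose f hf using key
  refine Infinite.of_injective f fun a b hab => ?_
  have h : (4 : ℚ) ^ (a + 1) = 4 ^ (b + 1) := by rw [← hf, ← hf, hab]
  have := pow_right_injective₀ (by norm_num : (0 : ℚ) < 4) (by norm_num) h
  omega

section Abstract

variable {Γ : Type} [AddCommGroup Γ] {T G : Γ}

lemma two_range_finiteIndex
    (hdesc : ∀ P : Γ, ∃ R : Γ, ∃ Q ∈ AddSubgroup.closure ({T, G} : Set Γ), P = R + R + Q) :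
    (nsmulAddMonoidHom (α := Γ) 2).range.FiniteIndex := by
  set D := (nsmulAddMonoidHom (α := Γ) 2).range with hD
  have hfin : Finite (Γ ⧸ D) := by
    refine Finite.of_surjective
      (fun p : Fin 2 × Fin 2 => (QuotientAddGroup.mk (((p.1 : ℕ) : ℤ) • T + ((p.2 : ℕ) : ℤ) • G) :
        Γ ⧸ D)) ?_
    intro q
    obtain ⟨P, rfl⟩ := QuotientAddGroup.mk_surjective q
    obtain ⟨R, Q, hQ, rfl⟩ := hdesc P
    obtain ⟨a, b, rfl⟩ := AddSubgroup.mem_closure_pair.mp hQ
    refine ⟨(⟨(a % 2).toNat, by omega⟩, ⟨(b % 2).toNat, by omega⟩), ?_⟩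
    rw [QuotientAddGroup.eq]
    refine ⟨R + (a / 2) • T + (b / 2) • G, ?_⟩
    have ha : (((a % 2).toNat : ℕ) : ℤ) = a - 2 * (a / 2) := by omega
    have hb : (((b % 2).toNat : ℕ) : ℤ) = b - 2 * (b / 2) := by omega
    simp only [nsmulAddMonoidHom_apply, ha, hb]
    module
  exact AddSubgroup.finiteIndex_of_finite_quotient

lemma exists_mul_mem_zmultiples [AddGroup.FG Γ] (hT : T + T = 0)
    (hdesc : ∀ P : Γ, ∃ R : Γ, ∃ Q ∈ AddSubgroup.closure ({T, G} : Set Γ), P = R + R + Q) :
    ∃ r : ℤ, r ≠ 0 ∧ ∀ P : Γ, r • P ∈ AddSubgroup.zmultiples G := by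
  have : Module.Finite ℤ Γ := Module.Finite.iff_addGroup_fg.mpr ‹_›
  set U : Submodule ℤ Γ := Submodule.span ℤ {T, G} with hU
  obtain ⟨r, hr, hr'⟩ := Submodule.exists_sub_one_mem_and_smul_eq_zero_of_fg_of_le_smul
    (Ideal.span {(2 : ℤ)}) (⊤ : Submodule ℤ (Γ ⧸ U)) Module.Finite.fg_top (by
      intro q _
      obtain ⟨P, rfl⟩ := Submodule.Quotient.mk_surjective U q
      obtain ⟨R, Q, hQ, rfl⟩ := hdesc P
      obtain ⟨a, b, rfl⟩ := AddSubgroup.mem_closure_pair.mp hQ
      have : (Submodule.Quotient.mk (R + R + (a • T + b • G)) : Γ ⧸ U) =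
          (2 : ℤ) • Submodule.Quotient.mk R := by
        rw [← Submodule.Quotient.mk_smul, Submodule.Quotient.eq]
        refine Submodule.mem_span_pair.mpr ⟨a, b, ?_⟩
        module
      rw [this]
      exact Submodule.smul_mem_smul (Ideal.mem_span_singleton_self _) Submodule.mem_top)
  rw [Ideal.mem_span_singleton] at hr
  refine ⟨2 * r, by omega, fun P => ?_⟩
  have h1 := hr' (Submodule.Quotient.mk P) Submodule.mem_top
  rw [← Submodule.Quotient.mk_smul, Submodule.Quotient.mk_eq_zero] at h1
  obtain ⟨a, b, hab⟩ := Submodule.mem_span_pair.mp h1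
  refine ⟨2 * b, ?_⟩
  have h2 : (2 * r) • P = (2 : ℤ) • (r • P) := by module
  have h3 : (2 : ℤ) • (a • T + b • G) = a • (T + T) + (2 * b) • G := by module
  simp only
  rw [h2, ← hab, h3, hT, smul_zero, zero_add]

lemma finiteIndex_zmultiples_of_smul_mem [AddGroup.FG Γ] {r : ℤ} (hr : r ≠ 0)
    (h : ∀ P : Γ, r • P ∈ AddSubgroup.zmultiples G) : (AddSubgroup.zmultiples G).FiniteIndex := by
  have hfin : Finite (Γ ⧸ AddSubgroup.zmultiples G) := by
    have : Module.Finite ℤ (Γ ⧸ AddSubgroup.zmultiples G) :=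
      Module.Finite.iff_addGroup_fg.mpr inferInstance
    refine Module.finite_of_fg_torsion _ ?_
    intro q
    obtain ⟨P, rfl⟩ := QuotientAddGroup.mk_surjective q
    refine ⟨⟨r, mem_nonZeroDivisors_of_ne_zero hr⟩, ?_⟩
    change r • (QuotientAddGroup.mk P : Γ ⧸ AddSubgroup.zmultiples G) = 0
    rw [← QuotientAddGroup.mk_zsmul, QuotientAddGroup.eq_zero_iff]
    exact h P
  exact AddSubgroup.finiteIndex_of_finite_quotient

end Abstract

theorem exists_G
    (hpar : ∃ C : ℝ, ∀ P Q : E.Point, |Real.log (H (P + Q)) + Real.log (H (P - Q)) -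
      2 * (Real.log (H P) + Real.log (H Q))| ≤ C)
    (hnorth : ∀ B : ℕ, {P : E.Point | H P ≤ B}.Finite)
    (hdesc : ∀ P : E.Point, ∃ R : E.Point, ∃ Q ∈ AddSubgroup.closure ({T0, G0} : Set E.Point),
      P = R + R + Q)
    (hT : T0 + T0 = 0) (B : ℕ) :
    ∃ G : E.Point, B < H G ∧ (AddSubgroup.zmultiples G).FiniteIndex := by
  obtain ⟨C, hC⟩ := hpar
  have hN : Northcott (fun P : E.Point => Real.log (H P)) := ⟨fun b => by
    refine (hnorth ⌈Real.exp b⌉₊).subset fun P hP => ?_
    have hpos : (0 : ℝ) < H P := by exact_mod_cast one_le_H P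
    have h1 : (H P : ℝ) ≤ Real.exp b := (Real.log_le_iff_le_exp hpos).mp hP
    have h2 : (H P : ℝ) ≤ ⌈Real.exp b⌉₊ := h1.trans (Nat.le_ceil _)
    exact_mod_cast h2⟩
  have hfg : AddGroup.FG E.Point :=
    AddCommGroup.fg_of_descent' (h := fun P : E.Point => Real.log (H P)) (C := C)
      (two_range_finiteIndex hdesc) (fun P => Real.log_natCast_nonneg _) hC
  obtain ⟨r, hr, hmem⟩ := exists_mul_mem_zmultiples hT hdesc
  have hfi : (AddSubgroup.zmultiples G0).FiniteIndex := finiteIndex_zmultiples_of_smul_mem hr hmem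
  have hinf : (AddSubgroup.zmultiples G0 : Set E.Point).Infinite := by
    intro hfin
    have : Finite (AddSubgroup.zmultiples G0) := hfin
    have h1 : Finite E.Point := by
      have := AddSubgroup.finite_quotient_of_finiteIndex (H := AddSubgroup.zmultiples G0)
      exact Finite.of_equiv _ (AddSubgroup.addGroupEquivQuotientProdAddSubgroup
        (s := AddSubgroup.zmultiples G0)).symm
    have := infinite_points
    exact not_finite E.Point
  obtain ⟨G, hG, hG'⟩ := hinf.exists_notMem_finite ((hnorth B).insert 0)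
  obtain ⟨m, rfl⟩ := hG
  simp only [Set.mem_insert_iff, Set.mem_ofPred_eq, not_or, not_le] at hG'
  have hm : m ≠ 0 := by
    rintro rfl
    exact hG'.1 (zero_zsmul _)
  refine ⟨m • G0, hG'.2, finiteIndex_zmultiples_of_smul_mem (mul_ne_zero hm hr) fun P => ?_⟩
  obtain ⟨k, hk⟩ := hmem P
  refine ⟨k, ?_⟩
  simp only at hk ⊢
  rw [mul_smul, ← hk, smul_comm]

end Crest.Agent.R323
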