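import Mathlib

/-! The elliptic curve `y² = x³ - 2x` over `ℚ`, its naive height and explicit addition formulas. -/

set_option autoImplicit false

namespace Crest.Agent.R323

open WeierstrassCurve

/-- The curve `y² = x³ - 2x`. -/
def E : WeierstrassCurve.Affine ℚ := ⟨0, 0, 0, -2, 0⟩

lemma E_Δ : E.Δ = 512 := by
  simp [E, WeierstrassCurve.Δ, WeierstrassCurve.b₂, WeierstrassCurve.b₄, WeierstrassCurve.b₆,
    WeierstrassCurve.b₈]
  norm_num

instance E_isElliptic : E.IsElliptic := ⟨by rw [E_Δ]; exact isUnit_iff_ne_zero.mpr (by norm_num)⟩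

lemma E_equation (x y : ℚ) : E.Equation x y ↔ y ^ 2 = x ^ 3 - 2 * x := by
  rw [WeierstrassCurve.Affine.equation_iff]
  simp only [E]
  constructor <;> intro h <;> linarith

lemma E_nonsingular (x y : ℚ) : E.Nonsingular x y ↔ y ^ 2 = x ^ 3 - 2 * x := by
  rw [← WeierstrassCurve.Affine.equation_iff_nonsingular, E_equation]

lemma E_negY (x y : ℚ) : E.negY x y = -y := by
  simp [E, WeierstrassCurve.Affine.negY]

lemma E_addX (x₁ x₂ l : ℚ) : E.addX x₁ x₂ l = l ^ 2 - x₁ - x₂ := by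
  simp [E, WeierstrassCurve.Affine.addX]

lemma E_addY (x₁ x₂ y₁ l : ℚ) :
    E.addY x₁ x₂ y₁ l = -(l * (l ^ 2 - x₁ - x₂ - x₁) + y₁) := by
  rw [WeierstrassCurve.Affine.addY, WeierstrassCurve.Affine.negAddY, E_negY, E_addX]

lemma E_slope_of_X_ne {x₁ x₂ : ℚ} (y₁ y₂ : ℚ) (h : x₁ ≠ x₂) :
    E.slope x₁ x₂ y₁ y₂ = (y₁ - y₂) / (x₁ - x₂) :=
  WeierstrassCurve.Affine.slope_of_X_ne h

lemma E_slope_self (x : ℚ) {y : ℚ} (h : y ≠ 0) :
    E.slope x x y y = (3 * x ^ 2 - 2) / (2 * y) := by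
  have hy : y ≠ E.negY x y := by rw [E_negY]; intro h'; apply h; linarith
  rw [WeierstrassCurve.Affine.slope_of_Y_ne rfl hy, E_negY]
  simp only [E]
  congr 1 <;> ring

/-- The naive height of a rational number. -/
def Hq (x : ℚ) : ℕ := max x.num.natAbs x.den

lemma one_le_Hq (x : ℚ) : 1 ≤ Hq x := le_max_of_le_right x.den_pos

/-- The naive height of a point. -/
def H : E.Point → ℕ
  | .zero => 1
  | .some x _ _ => Hq x

@[simp] lemma H_zero : H 0 = 1 := rfl

@[simp] lemma H_some {x y : ℚ} (h : E.Nonsingular x y) : H (.some x y h) = Hq x := rfl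

lemma one_le_H (P : E.Point) : 1 ≤ H P := by
  cases P with
  | zero => exact le_rfl
  | some x y h => exact one_le_Hq x

/-- The two-torsion point `(0,0)`. -/
def T0 : E.Point := .some 0 0 ((E_nonsingular 0 0).mpr (by norm_num))

/-- The point `(-1,1)`. -/
def G0 : E.Point := .some (-1) 1 ((E_nonsingular (-1) 1).mpr (by norm_num))

end Crest.Agent.R323
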