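import Crest.Agent.R323.Basic
import Crest.Agent.R323.CurveDef

/-! Integer- and rational-valued single-fold functions; selection from an `N`-fold relation. -/

set_option autoImplicit false

namespace Crest.Agent.R323

open Sum

variable {α : Type}

lemma SFfn.gcd_succ {f g : (α → ℕ) → ℕ} (hf : SFfn f) (hg : SFfn g) :
    SFfn (fun v => Nat.gcd (f v + 1) (g v)) := by
  refine SFfn.comp2 (F := fun a b => Nat.gcd (a + 1) b) ?_ hf hg
  have h1 : SF (fun u : Option (Fin 2) → ℕ => u none ∣ u (some 0) + 1 ∧ u none ∣ u (some 1) ∧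
      ∃ x, u none ∣ u (some 0) + 1 ∧ x < (u (some 0) + 1) / u none ∧
        u (some 1) / u none * x ≡ 1 [MOD (u (some 0) + 1) / u none]) := by
    refine SF.and (SF.dvd (SFfn.proj _) ((SFfn.proj _).add (SFfn.const 1)))
      (SF.and (SF.dvd (SFfn.proj _) (SFfn.proj _)) (SF.exu ?_ ?_))
    · exact SF.and (SF.dvd (SFfn.proj _) ((SFfn.proj _).add (SFfn.const 1)))
        (SF.and (SF.lt (SFfn.proj _) (((SFfn.proj _).add (SFfn.const 1)).div (SFfn.proj _)))
          (SF.modEq (((SFfn.proj _).div (SFfn.proj _)).mul (SFfn.proj _)) (SFfn.const 1)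
            (((SFfn.proj _).add (SFfn.const 1)).div (SFfn.proj _))))
    · rintro v x y ⟨-, a1, a2⟩ ⟨-, b1, b2⟩
      have hc := Nat.coprime_of_mul_modEq_one _ a2
      have := (a2.trans b2.symm).cancel_left_of_coprime hc.symm
      rwa [Nat.ModEq, Nat.mod_eq_of_lt a1, Nat.mod_eq_of_lt b1] at this
  refine h1.congr fun v => ?_
  simp only
  generalize v none = c
  generalize v (some 1) = a
  have hd : 0 < v (some 0) + 1 := by omega
  generalize v (some 0) + 1 = d at *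
  constructor
  · rintro ⟨⟨d', rfl⟩, ⟨a', rfl⟩, x, -, -, h⟩
    have hc : 0 < c := Nat.pos_of_mul_pos_right hd
    rw [Nat.mul_div_cancel_left _ hc, Nat.mul_div_cancel_left _ hc] at h
    rw [Nat.gcd_mul_left, (Nat.coprime_of_mul_modEq_one _ h).symm, mul_one]
  · rintro rfl
    have hg : 0 < Nat.gcd d a := Nat.gcd_pos_of_pos_left _ hd
    have hc := Nat.coprime_div_gcd_div_gcd hg
    obtain ⟨x, hx1, hx2⟩ := Nat.exists_mul_mod_eq_of_coprime 1 hc.symm
      (Nat.div_pos (Nat.gcd_le_left _ hd) hg).ne'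
    exact ⟨Nat.gcd_dvd_left _ _, Nat.gcd_dvd_right _ _, x, Nat.gcd_dvd_left _ _, hx1, hx2⟩

/-- integer-valued single-fold functions -/
def ZFn (W : (α → ℕ) → ℤ) : Prop :=
  ∃ f g : (α → ℕ) → ℕ, SFfn f ∧ SFfn g ∧ ∀ v, W v = f v - g v

lemma ZFn.nat {f : (α → ℕ) → ℕ} (hf : SFfn f) : ZFn (fun v => (f v : ℤ)) :=
  ⟨f, fun _ => 0, hf, SFfn.const 0, fun v => by simp⟩

lemma ZFn.const (n : ℤ) : ZFn (fun _ : α → ℕ => n) :=
  ⟨fun _ => n.toNat, fun _ => (-n).toNat, SFfn.const _, SFfn.const _, fun v => by simp⟩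

lemma ZFn.sub {V W : (α → ℕ) → ℤ} (hV : ZFn V) (hW : ZFn W) : ZFn (fun v => V v - W v) := by
  obtain ⟨f, g, a1, a2, a3⟩ := hV
  obtain ⟨f', g', b1, b2, b3⟩ := hW
  exact ⟨fun v => f v + g' v, fun v => g v + f' v, a1.add b2, a2.add b1,
    fun v => by simp only [a3, b3]; push_cast; ring⟩

lemma ZFn.mul {V W : (α → ℕ) → ℤ} (hV : ZFn V) (hW : ZFn W) : ZFn (fun v => V v * W v) := by
  obtain ⟨f, g, a1, a2, a3⟩ := hV
  obtain ⟨f', g', b1, b2, b3⟩ := hW
  exact ⟨fun v => f v * f' v + g v * g' v, fun v => f v * g' v + g v * f' v,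
    (a1.mul b1).add (a2.mul b2), (a1.mul b2).add (a2.mul b1),
    fun v => by simp only [a3, b3]; push_cast; ring⟩

lemma ZFn.natAbs {W : (α → ℕ) → ℤ} (hW : ZFn W) : SFfn (fun v => (W v).natAbs) := by
  obtain ⟨f, g, a1, a2, a3⟩ := hW
  exact ((a1.sub a2).add (a2.sub a1)).congr fun v => by rw [a3]; omega

/-- rational-valued single-fold functions -/
def QFn (X : (α → ℕ) → ℚ) : Prop :=
  ∃ (n : (α → ℕ) → ℤ) (d : (α → ℕ) → ℕ), ZFn n ∧ SFfn d ∧ ∀ v, 0 < d v ∧ X v = n v / d v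

lemma QFn.congr {X Y : (α → ℕ) → ℚ} (h : QFn X) (e : ∀ v, X v = Y v) : QFn Y := by
  have : X = Y := funext e
  exact this ▸ h

lemma QFn.const (q : ℚ) : QFn (fun _ : α → ℕ => q) :=
  ⟨fun _ => q.num, fun _ => q.den, ZFn.const _, SFfn.const _,
    fun _ => ⟨q.den_pos, (Rat.num_div_den q).symm⟩⟩

lemma QFn.sub {X Y : (α → ℕ) → ℚ} (hX : QFn X) (hY : QFn Y) : QFn (fun v => X v - Y v) := by
  obtain ⟨n, d, a1, a2, a3⟩ := hX
  obtain ⟨n', d', b1, b2, b3⟩ := hY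
  refine ⟨fun v => n v * d' v - n' v * d v, fun v => d v * d' v,
    (a1.mul (ZFn.nat b2)).sub (b1.mul (ZFn.nat a2)), a2.mul b2, fun v => ?_⟩
  obtain ⟨c1, c2⟩ := a3 v
  obtain ⟨c3, c4⟩ := b3 v
  refine ⟨Nat.mul_pos c1 c3, ?_⟩
  have : (d v : ℚ) ≠ 0 := by positivity
  have : (d' v : ℚ) ≠ 0 := by positivity
  simp only [c2, c4]
  push_cast
  field_simp

lemma QFn.mul {X Y : (α → ℕ) → ℚ} (hX : QFn X) (hY : QFn Y) : QFn (fun v => X v * Y v) := by
  obtain ⟨n, d, a1, a2, a3⟩ := hX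
  obtain ⟨n', d', b1, b2, b3⟩ := hY
  refine ⟨fun v => n v * n' v, fun v => d v * d' v, a1.mul b1, a2.mul b2, fun v => ?_⟩
  obtain ⟨c1, c2⟩ := a3 v
  obtain ⟨c3, c4⟩ := b3 v
  refine ⟨Nat.mul_pos c1 c3, ?_⟩
  simp only [c2, c4]
  push_cast
  rw [div_mul_div_comm]

lemma QFn.inv {X : (α → ℕ) → ℚ} (hX : QFn X) : QFn (fun v => (X v)⁻¹) := by
  obtain ⟨n, d, a1, a2, a3⟩ := hX
  refine ⟨fun v => n v * d v, fun v => (n v).natAbs * (n v).natAbs + (1 - (n v).natAbs),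
    a1.mul (ZFn.nat a2), (a1.natAbs.mul a1.natAbs).add ((SFfn.const 1).sub a1.natAbs), fun v => ?_⟩
  obtain ⟨c1, c2⟩ := a3 v
  simp only [c2]
  by_cases h0 : n v = 0
  · simp [h0]
  · have h1 : 0 < (n v).natAbs := Int.natAbs_pos.2 h0
    have h2 : 1 - (n v).natAbs = 0 := by omega
    refine ⟨by rw [h2]; positivity, ?_⟩
    have h3 : (((n v).natAbs * (n v).natAbs : ℕ) : ℚ) = n v * n v := by
      rw [← Int.cast_natCast, Int.natAbs_mul_self, Int.cast_mul]
    rw [h2, add_zero, h3]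
    have : (d v : ℚ) ≠ 0 := by positivity
    have : (n v : ℚ) ≠ 0 := by exact_mod_cast h0
    push_cast
    field_simp

lemma QFn.div {X Y : (α → ℕ) → ℚ} (hX : QFn X) (hY : QFn Y) : QFn (fun v => X v / Y v) :=
  (hX.mul hY.inv).congr fun _ => (div_eq_mul_inv _ _).symm

lemma QFn.den {X : (α → ℕ) → ℚ} (hX : QFn X) : SFfn (fun v => (X v).den) := by
  obtain ⟨n, d, a1, a2, a3⟩ := hX
  refine (a2.div ((a2.sub (SFfn.const 1)).gcd_succ a1.natAbs)).congr fun v => ?_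
  obtain ⟨c1, c2⟩ := a3 v
  rw [c2, ← Rat.mkRat_eq_div, Rat.den_mkRat, if_neg c1.ne', Nat.sub_add_cancel c1]

lemma QFn.num_natAbs {X : (α → ℕ) → ℚ} (hX : QFn X) : SFfn (fun v => (X v).num.natAbs) := by
  obtain ⟨n, d, a1, a2, a3⟩ := hX
  refine (a1.natAbs.div ((a2.sub (SFfn.const 1)).gcd_succ a1.natAbs)).congr fun v => ?_
  obtain ⟨c1, c2⟩ := a3 v
  rw [c2, ← Rat.mkRat_eq_div, Rat.num_mkRat, if_neg c1.ne', Nat.sub_add_cancel c1,
    Int.natAbs_ediv_of_dvd, Int.natAbs_natCast]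
  exact Int.natCast_dvd.2 (Nat.gcd_dvd_right _ _)

lemma QFn.height {X : (α → ℕ) → ℚ} (hX : QFn X) : SFfn (fun v => Hq (X v)) :=
  hX.num_natAbs.max hX.den

lemma QFn.eq {X Y : (α → ℕ) → ℚ} (hX : QFn X) (hY : QFn Y) : SF (fun v => X v = Y v) :=
  (SF.eq (hX.sub hY).num_natAbs (SFfn.const 0)).congr fun v => by
    rw [Int.natAbs_eq_zero, Rat.num_eq_zero, sub_eq_zero]

lemma QFn.ne {X Y : (α → ℕ) → ℚ} (hX : QFn X) (hY : QFn Y) : SF (fun v => X v ≠ Y v) :=
  (SF.ne (hX.sub hY).num_natAbs (SFfn.const 0)).congr fun v => by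
    rw [Ne, Int.natAbs_eq_zero, Rat.num_eq_zero, sub_eq_zero]

/-- decoding of a rational number from three naturals -/
def decQ (a b c : ℕ) : ℚ := ((a : ℤ) - b : ℤ) / ((c + 1 : ℕ) : ℚ)

/-- canonical codes -/
def ValidQ (a b c : ℕ) : Prop := a * b = 0 ∧ (decQ a b c).den = c + 1

lemma QFn.decQ {a b c : (α → ℕ) → ℕ} (ha : SFfn a) (hb : SFfn b) (hc : SFfn c) :
    QFn (fun v => decQ (a v) (b v) (c v)) :=
  ⟨_, _, (ZFn.nat ha).sub (ZFn.nat hb), hc.add (SFfn.const 1), fun _ => ⟨Nat.succ_pos _, rfl⟩⟩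

lemma SF.validQ {a b c : (α → ℕ) → ℕ} (ha : SFfn a) (hb : SFfn b) (hc : SFfn c) :
    SF (fun v => ValidQ (a v) (b v) (c v)) :=
  SF.and (SF.eq (ha.mul hb) (SFfn.const 0)) (SF.eq (QFn.decQ ha hb hc).den (hc.add (SFfn.const 1)))

lemma decQ_enc (x : ℚ) : decQ x.num.toNat (-x.num).toNat (x.den - 1) = x := by
  rw [decQ, Nat.sub_add_cancel x.den_pos, Int.toNat_sub_toNat_neg, Rat.num_div_den]

lemma validQ_enc (x : ℚ) : ValidQ x.num.toNat (-x.num).toNat (x.den - 1) := by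
  refine ⟨?_, by rw [decQ_enc, Nat.sub_add_cancel x.den_pos]⟩
  rcases le_total x.num 0 with h | h
  · rw [Int.toNat_eq_zero.2 h, zero_mul]
  · rw [Int.toNat_eq_zero.2 (neg_nonpos.2 h), mul_zero]

lemma ValidQ.inj {a b c a' b' c' : ℕ} (h : ValidQ a b c) (h' : ValidQ a' b' c')
    (e : decQ a b c = decQ a' b' c') : a = a' ∧ b = b' ∧ c = c' := by
  have hc : c = c' := by
    have := h.2.symm.trans (e ▸ h'.2)
    omega
  subst hc
  have h0 : ((c + 1 : ℕ) : ℚ) ≠ 0 := by positivity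
  rw [decQ, decQ, div_left_inj' h0, Int.cast_inj] at e
  rcases Nat.mul_eq_zero.1 h.1 with h1 | h1 <;> rcases Nat.mul_eq_zero.1 h'.1 with h2 | h2 <;> omega

lemma SFfn.pair {f g : (α → ℕ) → ℕ} (hf : SFfn f) (hg : SFfn g) :
    SFfn (fun v => Nat.pair (f v) (g v)) :=
  SFfn.ite_lt hf hg ((hg.mul hg).add hf) (((hf.mul hf).add hf).add hg)

/-- Selection of one solution of an exactly `N`-fold relation, by sorting. -/
lemma exists_sel {β : Type} [Finite β] {R : ℕ → (β → ℕ) → Prop}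
    (hR : SF (fun u : Option β → ℕ => R (u none) (fun i => u (some i))))
    {κ : (β → ℕ) → ℕ} (hκ : SFfn κ) (hinj : Function.Injective κ) {N : ℕ} (hN : 0 < N)
    (hc : ∀ K, {t | R K t}.ncard = N) :
    ∃ sel : ℕ → β → ℕ, (∀ K, R K (sel K)) ∧ ∀ i, SFfn (fun u : Unit → ℕ => sel (u ()) i) := by
  classical
  let S : ℕ → (Fin N × β → ℕ) → Prop := fun K w =>
    (∀ j, R K (fun i => w (j, i))) ∧ StrictMono (fun j => κ (fun i => w (j, i)))
  have hfin : ∀ K, {t | R K t}.Finite := fun K => Set.finite_of_ncard_pos (by rw [hc]; exact hN)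
  have hcard : ∀ K, ((hfin K).toFinset.image κ).card = N := fun K => by
    rw [Finset.card_image_of_injective _ hinj, ← Set.ncard_eq_toFinset_card _ (hfin K), hc]
  have hex : ∀ K, ∃ w, S K w := by
    intro K
    have : ∀ j, ∃ t, R K t ∧ κ t = ((hfin K).toFinset.image κ).orderEmbOfFin (hcard K) j := by
      intro j
      obtain ⟨t, ht, e⟩ := Finset.mem_image.1 (Finset.orderEmbOfFin_mem _ (hcard K) j)
      exact ⟨t, (hfin K).mem_toFinset.1 ht, e⟩
    choose t ht1 ht2 using this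
    refine ⟨fun p => t p.1 p.2, ht1, ?_⟩
    simp only [ht2]
    exact OrderEmbedding.strictMono _
  have hun : ∀ K w w', S K w → S K w' → w = w' := by
    intro K w w' a b
    have e1 := Finset.orderEmbOfFin_unique (hcard K)
      (fun j => Finset.mem_image_of_mem κ ((hfin K).mem_toFinset.2 (a.1 j))) a.2
    have e2 := Finset.orderEmbOfFin_unique (hcard K)
      (fun j => Finset.mem_image_of_mem κ ((hfin K).mem_toFinset.2 (b.1 j))) b.2
    funext ⟨j, i⟩
    exact congrFun (hinj (congrFun (e1.trans e2.symm) j)) i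
  choose W hW using hex
  refine ⟨fun K i => W K (⟨0, hN⟩, i), fun K => (hW K).1 _, fun i => ?_⟩
  have h1 : SF (fun u : Option Unit ⊕ (Fin N × β) → ℕ =>
      S (u (inl (some ()))) (fun p => u (inr p)) ∧ u (inl none) = u (inr (⟨0, hN⟩, i))) := by
    refine SF.and (SF.and (SF.forall_finite fun j => ?_) ?_) (SF.eq (SFfn.proj _) (SFfn.proj _))
    · exact hR.rename (fun o => o.elim (inl (some ())) (fun i => inr (j, i)))
    · refine SF.forall_finite fun j => SF.forall_finite fun j' => ?_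
      by_cases h : j < j'
      · exact (SF.lt (hκ.rename fun i => inr (j, i)) (hκ.rename fun i => inr (j', i))).congr
          fun v => by simp [h]
      · exact SF.true.congr fun v => by simp [h]
  have h2 := SF.exuSum (γ := Fin N × β)
    (S := fun (v : Option Unit → ℕ) w => S (v (some ())) w ∧ v none = w (⟨0, hN⟩, i)) h1
    (fun v w w' a b => hun _ _ _ a.1 b.1)
  refine h2.congr fun v => ⟨fun ⟨w, a, b⟩ => ?_, fun h => ⟨_, hW _, h⟩⟩
  rw [b, hun _ _ _ a (hW _)]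

end Crest.Agent.R323
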