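import Crest.Agent.R323.Pow
import Crest.Agent.R323.RatFn
import Crest.Agent.R323.Convex
import Crest.Agent.R323.Parallelogram
import Crest.Agent.R323.Descent
import Crest.Agent.R323.RankOne

/-! The single-fold function of quasi-polynomial growth, from heights on `y² = x³ - 2x`. -/

set_option autoImplicit false

namespace Crest.Agent.R323

open WeierstrassCurve WeierstrassCurve.Affine

/-- The crossing condition in coordinates. -/
def CrossQ (xg yg : ℚ) (K : ℕ) (x y : ℚ) : Prop :=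
  y * y = x * x * x - 2 * x ∧ x ≠ xg ∧
    Hq x ≤ K * Hq ((y - -yg) / (x - xg) * ((y - -yg) / (x - xg)) - x - xg) ∧
    K * Hq x < Hq ((y - yg) / (x - xg) * ((y - yg) / (x - xg)) - x - xg)

lemma SF.crossQ {α : Type} (xg yg : ℚ) {K : (α → ℕ) → ℕ} {x y : (α → ℕ) → ℚ} (hK : SFfn K)
    (hx : QFn x) (hy : QFn y) : SF (fun v => CrossQ xg yg (K v) (x v) (y v)) := by
  have s1 := (hy.sub (QFn.const (-yg))).div (hx.sub (QFn.const xg))
  have s2 := (hy.sub (QFn.const yg)).div (hx.sub (QFn.const xg))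
  exact SF.and ((hy.mul hy).eq (((hx.mul hx).mul hx).sub ((QFn.const 2).mul hx)))
    (SF.and (hx.ne (QFn.const xg))
      (SF.and (SF.le hx.height (hK.mul (((s1.mul s1).sub hx).sub (QFn.const xg)).height))
        (SF.lt (hK.mul hx.height) (((s2.mul s2).sub hx).sub (QFn.const xg)).height)))

lemma cross_iff_crossQ {xg yg x y : ℚ} (hg : E.Nonsingular xg yg) (h : E.Nonsingular x y)
    (hx : x ≠ xg) (K : ℕ) :
    Cross H (Point.some xg yg hg) K (Point.some x y h) ↔ CrossQ xg yg K x y := by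
  have e := (E_nonsingular x y).1 h
  have e' : y * y = x * x * x - 2 * x := by linarith
  unfold Cross CrossQ
  rw [sub_eq_add_neg, Point.neg_some, Point.add_of_X_ne hx, Point.add_of_X_ne hx]
  simp only [H_some, E_addX, E_slope_of_X_ne _ _ hx, E_negY, sq]
  exact ⟨fun h => ⟨e', hx, h⟩, fun h => h.2.2⟩

theorem quasiSF : QuasiSF := by
  obtain ⟨C, hC⟩ := parallelogram
  obtain ⟨G, hG1, hG2⟩ := exists_G ⟨C, hC⟩ northcott_H two_descent T0_add_T0
    (⌈Real.exp |C|⌉₊ + 1)
  have hlog : |C| < Real.log (H G) := by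
    rw [Real.lt_log_iff_exp_lt (by exact_mod_cast one_le_H G)]
    have h1 := Nat.le_ceil (Real.exp |C|)
    have h2 : ((⌈Real.exp |C|⌉₊ + 1 : ℕ) : ℝ) < H G := by exact_mod_cast hG1
    push_cast at h2
    linarith
  have c1 := le_abs_self C
  have c2 := neg_abs_le C
  have c3 := abs_nonneg C
  have eD : ∀ P, Dh H G P - Dh H G (P - G) =
      Real.log (H (P + G)) + Real.log (H (P - G)) - 2 * Real.log (H P) := fun P => by
    rw [Dh, Dh, sub_add_cancel]; ring
  have hlo : ∀ P, 2 * Real.log (H G) - C ≤ Dh H G P - Dh H G (P - G) := fun P => by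
    have := (abs_le.1 (hC P G)).1
    rw [eD]; linarith
  have hhi : ∀ P, Dh H G P - Dh H G (P - G) ≤ 2 * Real.log (H G) + C := fun P => by
    have := (abs_le.1 (hC P G)).2
    rw [eD]; linarith
  have ha : 0 < 2 * Real.log (H G) - C := by linarith
  have hb : 0 < 2 * Real.log (H G) + C := by linarith
  obtain ⟨k, A0, hgrow⟩ := cross_growth one_le_H ha hb hlo hhi
  set K0 : ℕ := H (0 + G) + H (G + G) + H (-G + G) with hK0
  have hK1 : 1 ≤ K0 := by have := one_le_H (0 + G); omega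
  have hexc : ∀ K, K0 ≤ K → ∀ P, Cross H G K P → P ≠ 0 ∧ P ≠ G ∧ P ≠ -G := by
    intro K hK P hP
    have h1 : K ≤ K * H P := Nat.le_mul_of_pos_right _ (one_le_H P)
    have h2 := hP.2
    refine ⟨?_, ?_, ?_⟩ <;> rintro rfl <;> omega
  have hcount := fun K (hK : 1 ≤ K) => ncard_cross one_le_H ha hlo hK
  have hN : 0 < (AddSubgroup.zmultiples G).index := Nat.pos_of_ne_zero hG2.index_ne_zero
  rcases G with _ | ⟨xg, yg, hg⟩
  · exfalso
    have : H Point.zero = 1 := rfl
    omega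
  let R : ℕ → (Fin 6 → ℕ) → Prop := fun K t => ValidQ (t 0) (t 1) (t 2) ∧ ValidQ (t 3) (t 4) (t 5) ∧
    CrossQ xg yg (max K K0) (decQ (t 0) (t 1) (t 2)) (decQ (t 3) (t 4) (t 5))
  have hns : ∀ K t, R K t → E.Nonsingular (decQ (t 0) (t 1) (t 2)) (decQ (t 3) (t 4) (t 5)) :=
    fun K t ht => (E_nonsingular _ _).2 (by have := ht.2.2.1; linarith)
  have hR : SF (fun u : Option (Fin 6) → ℕ => R (u none) (fun i => u (some i))) :=
    SF.and (SF.validQ (SFfn.proj _) (SFfn.proj _) (SFfn.proj _))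
      (SF.and (SF.validQ (SFfn.proj _) (SFfn.proj _) (SFfn.proj _))
        (SF.crossQ xg yg ((SFfn.proj _).max (SFfn.const K0))
          (QFn.decQ (SFfn.proj _) (SFfn.proj _) (SFfn.proj _))
          (QFn.decQ (SFfn.proj _) (SFfn.proj _) (SFfn.proj _))))
  have hκ : SFfn (fun t : Fin 6 → ℕ => Nat.pair (t 0) (Nat.pair (t 1) (Nat.pair (t 2)
      (Nat.pair (t 3) (Nat.pair (t 4) (t 5)))))) :=
    (SFfn.proj _).pair ((SFfn.proj _).pair ((SFfn.proj _).pair ((SFfn.proj _).pair
      ((SFfn.proj _).pair (SFfn.proj _)))))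
  have hinj : Function.Injective (fun t : Fin 6 → ℕ => Nat.pair (t 0) (Nat.pair (t 1)
      (Nat.pair (t 2) (Nat.pair (t 3) (Nat.pair (t 4) (t 5)))))) := by
    intro t t' e
    simp only [Nat.pair_eq_pair] at e
    obtain ⟨e0, e1, e2, e3, e4, e5⟩ := e
    funext i
    fin_cases i <;> assumption
  have hc : ∀ K, {t | R K t}.ncard = (AddSubgroup.zmultiples (Point.some xg yg hg)).index := by
    intro K
    rw [← hcount (max K K0) (le_max_of_le_right hK1)]
    refine Set.ncard_congr (fun t ht => Point.some _ _ (hns K t ht)) ?_ ?_ ?_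
    · intro t ht
      exact (cross_iff_crossQ hg (hns K t ht) ht.2.2.2.1 _).2 ht.2.2
    · intro t t' ht ht' e
      simp only [Point.some.injEq] at e
      obtain ⟨e0, e1, e2⟩ := ht.1.inj ht'.1 e.1
      obtain ⟨e3, e4, e5⟩ := ht.2.1.inj ht'.2.1 e.2
      funext i
      fin_cases i <;> assumption
    · intro P hP
      obtain ⟨n0, n1, n2⟩ := hexc _ (le_max_right K K0) P hP
      rcases P with _ | ⟨x, y, h⟩
      · exact (n0 rfl).elim
      have hx : x ≠ xg := fun e => by
        rcases (Point.X_eq_iff (h₁ := h) (h₂ := hg)).1 e with e' | e'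
        · exact n1 e'
        · exact n2 e'
      have hq := (cross_iff_crossQ hg h hx _).1 hP
      refine ⟨![x.num.toNat, (-x.num).toNat, x.den - 1, y.num.toNat, (-y.num).toNat, y.den - 1],
        ⟨validQ_enc x, validQ_enc y, ?_⟩, ?_⟩
      · change CrossQ xg yg _ (decQ x.num.toNat (-x.num).toNat (x.den - 1))
          (decQ y.num.toNat (-y.num).toNat (y.den - 1))
        rwa [decQ_enc, decQ_enc]
      · simp only [Point.some.injEq]
        exact ⟨decQ_enc x, decQ_enc y⟩
  obtain ⟨sel, hsel1, hsel2⟩ := exists_sel hR hκ hinj hN hc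
  refine ⟨fun A => Hq (decQ (sel A 0) (sel A 1) (sel A 2)) ^ k, max A0 K0,
    (QFn.decQ (hsel2 0) (hsel2 1) (hsel2 2)).height.pow_const k, fun A hA => ?_⟩
  have ht := hsel1 A
  have h1 := (cross_iff_crossQ hg (hns A _ ht) ht.2.2.2.1 _).2 ht.2.2
  rw [max_eq_left ((le_max_right _ _).trans hA)] at h1
  exact hgrow A ((le_max_left _ _).trans hA) _ h1

end Crest.Agent.R323
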