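import Mathlib

/-! Single-fold Diophantine predicates and functions: the closure properties. -/

set_option autoImplicit false

namespace Crest.Agent.R323

open Sum

section poly
variable {α γ : Type}

lemma poly_rename {p : (α → ℕ) → ℤ} (hp : IsPoly p) (g : α → γ) :
    IsPoly (fun u : γ → ℕ => p (fun i => u (g i))) := by
  induction hp with
  | proj i => exact IsPoly.proj (g i)
  | const n => exact IsPoly.const n
  | sub _ _ ih1 ih2 => exact IsPoly.sub ih1 ih2
  | mul _ _ ih1 ih2 => exact IsPoly.mul ih1 ih2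

lemma poly_add {p q : (α → ℕ) → ℤ} (hp : IsPoly p) (hq : IsPoly q) :
    IsPoly (fun u => p u + q u) := IsPoly.add hp hq

lemma poly_sq {p : (α → ℕ) → ℤ} (hp : IsPoly p) : IsPoly (fun u => p u ^ 2) := by
  simp only [sq]; exact IsPoly.mul hp hp

lemma poly_sum {ι : Type} (s : Finset ι) {p : ι → (α → ℕ) → ℤ} (hp : ∀ i, IsPoly (p i)) :
    IsPoly (fun u => ∑ i ∈ s, p i u) := by
  classical
  induction s using Finset.induction_on with
  | empty => simpa using IsPoly.const 0
  | insert a s ha ih =>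
    simp only [Finset.sum_insert ha]
    exact poly_add (hp a) ih

/-- polynomial in two blocks of variables -/
def IsPoly₂ {β : Type} (p : (α → ℕ) → (β → ℕ) → ℤ) : Prop :=
  IsPoly (fun u : α ⊕ β → ℕ => p (fun i => u (inl i)) (fun j => u (inr j)))

lemma IsPoly₂.map {β : Type} {p : (α → ℕ) → (β → ℕ) → ℤ} (hp : IsPoly₂ p) (f : α → γ) (g : β → γ) :
    IsPoly (fun u : γ → ℕ => p (fun i => u (f i)) (fun j => u (g j))) :=
  poly_rename hp (Sum.elim f g)

end poly

/-- `S` has a single-fold Diophantine representation. -/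
def SF {α : Type} (S : (α → ℕ) → Prop) : Prop :=
  ∃ (β : Type) (_ : Finite β) (p : (α → ℕ) → (β → ℕ) → ℤ), IsPoly₂ p ∧
    (∀ v, S v ↔ ∃ w, p v w = 0) ∧ ∀ v w w', p v w = 0 → p v w' = 0 → w = w'

/-- The graph of `f` has a single-fold Diophantine representation. -/
def SFfn {α : Type} (f : (α → ℕ) → ℕ) : Prop :=
  SF (fun u : Option α → ℕ => u none = f (fun i => u (some i)))

variable {α γ : Type}

lemma SF.congr {S T : (α → ℕ) → Prop} (h : SF S) (e : ∀ v, S v ↔ T v) : SF T := by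
  have : S = T := funext fun v => propext (e v)
  exact this ▸ h

lemma SF.of_iff {S T : (α → ℕ) → Prop} (e : ∀ v, T v ↔ S v) (h : SF S) : SF T :=
  h.congr fun v => (e v).symm

lemma SFfn.congr {f g : (α → ℕ) → ℕ} (h : SFfn f) (e : ∀ v, f v = g v) : SFfn g := by
  have : f = g := funext e
  exact this ▸ h

lemma SFfn.of_eq {f g : (α → ℕ) → ℕ} (e : ∀ v, g v = f v) (h : SFfn f) : SFfn g :=
  h.congr fun v => (e v).symm

lemma SF.poly {p : (α → ℕ) → ℤ} (hp : IsPoly p) : SF (fun v => p v = 0) := by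
  refine ⟨Empty, inferInstance, fun v _ => p v, poly_rename hp inl, fun v => ?_, fun v w w' _ _ => ?_⟩
  · exact ⟨fun h => ⟨fun e => e.elim, h⟩, fun ⟨_, h⟩ => h⟩
  · exact funext fun e => e.elim

lemma SF.true : SF (fun _ : α → ℕ => True) :=
  (SF.poly (IsPoly.const 0)).congr fun _ => by simp

lemma SF.false : SF (fun _ : α → ℕ => False) :=
  (SF.poly (IsPoly.const 1)).congr fun _ => by simp

lemma SF.rename {S : (α → ℕ) → Prop} (h : SF S) (g : α → γ) :
    SF (fun u : γ → ℕ => S (fun i => u (g i))) := by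
  obtain ⟨β, hβ, p, hp, h1, h2⟩ := h
  exact ⟨β, hβ, fun v w => p (fun i => v (g i)) w, hp.map (fun i => inl (g i)) inr,
    fun v => h1 _, fun v w w' => h2 _ w w'⟩

lemma SFfn.rename {f : (α → ℕ) → ℕ} (h : SFfn f) (g : α → γ) :
    SFfn (fun u : γ → ℕ => f (fun i => u (g i))) :=
  SF.rename h (Option.map g)

lemma SF.and {S T : (α → ℕ) → Prop} (hS : SF S) (hT : SF T) : SF (fun v => S v ∧ T v) := by
  obtain ⟨β, hβ, p, hp, h1, h2⟩ := hS
  obtain ⟨β', hβ', p', hp', h1', h2'⟩ := hT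
  have key : ∀ a b : ℤ, a ^ 2 + b ^ 2 = 0 ↔ a = 0 ∧ b = 0 := fun a b =>
    ⟨fun h => ⟨by nlinarith [sq_nonneg a, sq_nonneg b], by nlinarith [sq_nonneg a, sq_nonneg b]⟩,
      fun ⟨h, h'⟩ => by simp [h, h']⟩
  refine ⟨β ⊕ β', inferInstance,
    fun v w => p v (fun j => w (inl j)) ^ 2 + p' v (fun j => w (inr j)) ^ 2,
    poly_add (poly_sq (hp.map inl (fun j => inr (inl j))))
      (poly_sq (hp'.map inl (fun j => inr (inr j)))), fun v => ?_, fun v w w' hw hw' => ?_⟩
  · simp only [key, h1, h1']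
    exact ⟨fun ⟨⟨w, hw⟩, ⟨w', hw'⟩⟩ => ⟨Sum.elim w w', hw, hw'⟩,
      fun ⟨w, hw, hw'⟩ => ⟨⟨_, hw⟩, ⟨_, hw'⟩⟩⟩
  · rw [key] at hw hw'
    have e1 := h2 _ _ _ hw.1 hw'.1
    have e2 := h2' _ _ _ hw.2 hw'.2
    funext j
    cases j with
    | inl j => exact congrFun e1 j
    | inr j => exact congrFun e2 j

lemma SF.or {S T : (α → ℕ) → Prop} (hS : SF S) (hT : SF T) (hd : ∀ v, S v → T v → False) :
    SF (fun v => S v ∨ T v) := by
  obtain ⟨β, hβ, p, hp, h1, h2⟩ := hS
  obtain ⟨β', hβ', p', hp', h1', h2'⟩ := hT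
  have := Fintype.ofFinite β
  have := Fintype.ofFinite β'
  have key : ∀ {δ : Type} [Fintype δ] (a : ℤ) (w : δ → ℕ),
      a ^ 2 + ∑ j, (w j : ℤ) = 0 ↔ a = 0 ∧ w = 0 := by
    intro δ _ a w
    have h0 : 0 ≤ ∑ j, (w j : ℤ) := Finset.sum_nonneg fun j _ => by positivity
    constructor
    · intro h
      have ha : a = 0 := by nlinarith [sq_nonneg a]
      refine ⟨ha, ?_⟩
      have hs : ∑ j, (w j : ℤ) = 0 := by nlinarith [sq_nonneg a]
      rw [Finset.sum_eq_zero_iff_of_nonneg fun j _ => by positivity] at hs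
      funext j
      exact_mod_cast hs j (Finset.mem_univ j)
    · rintro ⟨rfl, rfl⟩; simp
  refine ⟨β ⊕ β', inferInstance,
    fun v w => (p v (fun j => w (inl j)) ^ 2 + ∑ j, (w (inr j) : ℤ)) *
      (p' v (fun j => w (inr j)) ^ 2 + ∑ j, (w (inl j) : ℤ)),
    IsPoly.mul
      (poly_add (poly_sq (hp.map inl (fun j => inr (inl j))))
        (poly_sum _ fun j => IsPoly.proj (inr (inr j))))
      (poly_add (poly_sq (hp'.map inl (fun j => inr (inr j))))
        (poly_sum _ fun j => IsPoly.proj (inr (inl j)))), fun v => ?_, fun v w w' hw hw' => ?_⟩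
  · simp only [mul_eq_zero, key, h1, h1']
    constructor
    · rintro (⟨w, hw⟩ | ⟨w, hw⟩)
      · exact ⟨Sum.elim w 0, Or.inl ⟨hw, rfl⟩⟩
      · exact ⟨Sum.elim 0 w, Or.inr ⟨hw, rfl⟩⟩
    · rintro ⟨w, ⟨hw, -⟩ | ⟨hw, -⟩⟩
      · exact Or.inl ⟨_, hw⟩
      · exact Or.inr ⟨_, hw⟩
  · simp only [mul_eq_zero, key] at hw hw'
    rcases hw with ⟨a, b⟩ | ⟨a, b⟩ <;> rcases hw' with ⟨a', b'⟩ | ⟨a', b'⟩
    · have e := h2 _ _ _ a a'
      funext j
      cases j with
      | inl j => exact congrFun e j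
      | inr j => exact (congrFun b j).trans (congrFun b' j).symm
    · exact (hd v ((h1 v).2 ⟨_, a⟩) ((h1' v).2 ⟨_, a'⟩)).elim
    · exact (hd v ((h1 v).2 ⟨_, a'⟩) ((h1' v).2 ⟨_, a⟩)).elim
    · have e := h2' _ _ _ a a'
      funext j
      cases j with
      | inl j => exact (congrFun b j).trans (congrFun b' j).symm
      | inr j => exact congrFun e j

/-- Projection along a finite block of uniquely determined variables. -/
lemma SF.exuSum [Finite γ] {S : (α → ℕ) → (γ → ℕ) → Prop}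
    (h : SF (fun u : α ⊕ γ → ℕ => S (fun i => u (inl i)) (fun j => u (inr j))))
    (hu : ∀ v w w', S v w → S v w' → w = w') : SF (fun v => ∃ w, S v w) := by
  obtain ⟨β, hβ, p, hp, h1, h2⟩ := h
  refine ⟨γ ⊕ β, inferInstance,
    fun v w => p (Sum.elim v (fun j => w (inl j))) (fun j => w (inr j)), ?_, fun v => ?_,
    fun v w w' hw hw' => ?_⟩
  · have := hp.map (γ := α ⊕ γ ⊕ β) (Sum.elim inl (fun j => inr (inl j))) (fun j => inr (inr j))
    unfold IsPoly₂
    convert this using 3 with u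
    funext i
    cases i <;> rfl
  · constructor
    · rintro ⟨w, hw⟩
      obtain ⟨w', hw'⟩ := (h1 (Sum.elim v w)).1 hw
      exact ⟨Sum.elim w w', hw'⟩
    · rintro ⟨w, hw⟩
      exact ⟨_, (h1 _).2 ⟨_, hw⟩⟩
  · have e1 : (fun j => w (inl j)) = fun j => w' (inl j) :=
      hu v _ _ ((h1 _).2 ⟨_, hw⟩) ((h1 _).2 ⟨_, hw'⟩)
    beta_reduce at hw hw'
    rw [e1] at hw
    have e2 := h2 _ _ _ hw hw'
    funext j
    cases j with
    | inl j => exact congrFun e1 j
    | inr j => exact congrFun e2 j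

/-- Projection along one uniquely determined variable. -/
lemma SF.exu {S : (α → ℕ) → ℕ → Prop}
    (h : SF (fun u : Option α → ℕ => S (fun i => u (some i)) (u none)))
    (hu : ∀ v x y, S v x → S v y → x = y) : SF (fun v => ∃ x, S v x) := by
  have h' := h.rename (γ := α ⊕ Unit) (fun o => o.elim (inr ()) inl)
  have := SF.exuSum (γ := Unit) (S := fun v w => S v (w ())) h'
    (fun v w w' a b => funext fun _ => hu v _ _ a b)
  exact this.congr fun v => ⟨fun ⟨w, hw⟩ => ⟨_, hw⟩, fun ⟨x, hx⟩ => ⟨fun _ => x, hx⟩⟩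

lemma SF.forall_finset {ι : Type} (s : Finset ι) {S : ι → (α → ℕ) → Prop} (h : ∀ i, SF (S i)) :
    SF (fun v => ∀ i ∈ s, S i v) := by
  classical
  induction s using Finset.induction_on with
  | empty => exact SF.true.congr fun v => by simp
  | insert a s _ ih => exact ((h a).and ih).congr fun v => by simp

lemma SF.forall_finite {ι : Type} [Finite ι] {S : ι → (α → ℕ) → Prop} (h : ∀ i, SF (S i)) :
    SF (fun v => ∀ i, S i v) := by
  have := Fintype.ofFinite ι
  exact (SF.forall_finset Finset.univ h).congr fun v => by simp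

/-- Substitution of single-fold functions into a single-fold predicate. -/
lemma SF.subst {β : Type} [Finite β] {S : (β → ℕ) → Prop} (h : SF S) {g : β → (α → ℕ) → ℕ}
    (hg : ∀ i, SFfn (g i)) : SF (fun v => S (fun i => g i v)) := by
  have h1 : SF (fun u : α ⊕ β → ℕ =>
      (∀ j, u (inr j) = g j (fun i => u (inl i))) ∧ S (fun j => u (inr j))) :=
    SF.and (SF.forall_finite fun j => SF.rename (hg j) (fun o => o.elim (inr j) inl))
      (h.rename inr)
  have := SF.exuSum (S := fun v w => (∀ j, w j = g j v) ∧ S w) h1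
    (fun v w w' a b => funext fun j => (a.1 j).trans (b.1 j).symm)
  refine this.congr fun v => ⟨fun ⟨w, hw, hS⟩ => ?_, fun hS => ⟨_, fun _ => rfl, hS⟩⟩
  have : w = fun i => g i v := funext hw
  exact this ▸ hS

lemma SFfn.poly {f : (α → ℕ) → ℕ} (hf : IsPoly (fun v => (f v : ℤ))) : SFfn f :=
  (SF.poly (IsPoly.sub (IsPoly.proj none) (poly_rename hf some))).congr fun v => by
    rw [sub_eq_zero]; exact Nat.cast_inj

lemma SFfn.proj (i : α) : SFfn (fun v : α → ℕ => v i) := SFfn.poly (IsPoly.proj i)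

lemma SFfn.const (n : ℕ) : SFfn (fun _ : α → ℕ => n) := SFfn.poly (IsPoly.const n)

lemma SFfn.comp {β : Type} [Finite β] {F : (β → ℕ) → ℕ} (h : SFfn F) {g : β → (α → ℕ) → ℕ}
    (hg : ∀ i, SFfn (g i)) : SFfn (fun v => F (fun i => g i v)) :=
  SF.subst (S := fun u : Option β → ℕ => u none = F (fun i => u (some i))) h
    (g := fun o => o.elim (fun u : Option α → ℕ => u none) (fun j u => g j (fun i => u (some i))))
    (fun o => by
      cases o with
      | none => exact SFfn.proj none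
      | some j => exact (hg j).rename some)

lemma SFfn.comp1 {F : ℕ → ℕ} (h : SFfn (fun u : Unit → ℕ => F (u ()))) {f : (α → ℕ) → ℕ}
    (hf : SFfn f) : SFfn (fun v => F (f v)) :=
  h.comp (g := fun _ => f) fun _ => hf

lemma SFfn.comp2 {F : ℕ → ℕ → ℕ} (h : SFfn (fun u : Fin 2 → ℕ => F (u 0) (u 1)))
    {f g : (α → ℕ) → ℕ} (hf : SFfn f) (hg : SFfn g) : SFfn (fun v => F (f v) (g v)) :=
  h.comp (g := ![f, g]) fun i => by fin_cases i <;> assumption

lemma SF.comp2 {R : ℕ → ℕ → Prop} (h : SF (fun u : Fin 2 → ℕ => R (u 0) (u 1)))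
    {f g : (α → ℕ) → ℕ} (hf : SFfn f) (hg : SFfn g) : SF (fun v => R (f v) (g v)) :=
  h.subst (g := ![f, g]) fun i => by fin_cases i <;> assumption

lemma SFfn.add {f g : (α → ℕ) → ℕ} (hf : SFfn f) (hg : SFfn g) : SFfn (fun v => f v + g v) :=
  SFfn.comp2 (F := fun a b => a + b)
    (SFfn.poly (by simp only [Nat.cast_add]; exact poly_add (IsPoly.proj _) (IsPoly.proj _))) hf hg

lemma SFfn.mul {f g : (α → ℕ) → ℕ} (hf : SFfn f) (hg : SFfn g) : SFfn (fun v => f v * g v) :=
  SFfn.comp2 (F := fun a b => a * b)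
    (SFfn.poly (by simp only [Nat.cast_mul]; exact IsPoly.mul (IsPoly.proj _) (IsPoly.proj _))) hf hg

lemma SF.eq {f g : (α → ℕ) → ℕ} (hf : SFfn f) (hg : SFfn g) : SF (fun v => f v = g v) :=
  SF.comp2 (R := fun a b => a = b)
    ((SF.poly (IsPoly.sub (IsPoly.proj 0) (IsPoly.proj 1))).congr fun v => by
      rw [sub_eq_zero]; exact Nat.cast_inj) hf hg

lemma SF.le {f g : (α → ℕ) → ℕ} (hf : SFfn f) (hg : SFfn g) : SF (fun v => f v ≤ g v) := by
  refine SF.comp2 (R := fun a b => a ≤ b) ?_ hf hg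
  have : SF (fun u : Fin 2 → ℕ => ∃ x, u 1 = u 0 + x) :=
    SF.exu (SF.eq (SFfn.proj _) (SFfn.add (SFfn.proj _) (SFfn.proj _))) fun v x y a b => by omega
  exact this.congr fun v => ⟨fun ⟨x, hx⟩ => by omega, fun h => ⟨v 1 - v 0, by omega⟩⟩

lemma SF.lt {f g : (α → ℕ) → ℕ} (hf : SFfn f) (hg : SFfn g) : SF (fun v => f v < g v) :=
  SF.le (hf.add (SFfn.const 1)) hg

lemma SF.ne {f g : (α → ℕ) → ℕ} (hf : SFfn f) (hg : SFfn g) : SF (fun v => f v ≠ g v) :=
  ((SF.lt hf hg).or (SF.lt hg hf) fun v a b => by omega).congr fun v => by omega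

lemma SFfn.ite {c : (α → ℕ) → Prop} [DecidablePred c] (hc : SF c) (hc' : SF fun v => ¬ c v)
    {f g : (α → ℕ) → ℕ} (hf : SFfn f) (hg : SFfn g) : SFfn (fun v => if c v then f v else g v) := by
  have := ((hc.rename some).and hf).or ((hc'.rename some).and hg) fun v a b => b.1 a.1
  refine this.congr fun v => ?_
  by_cases h : c (fun i => v (some i)) <;> simp [h]

lemma SFfn.ite_lt {a b f g : (α → ℕ) → ℕ} (ha : SFfn a) (hb : SFfn b) (hf : SFfn f) (hg : SFfn g) :
    SFfn (fun v => if a v < b v then f v else g v) :=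
  SFfn.ite (SF.lt ha hb) ((SF.le hb ha).congr fun v => by omega) hf hg

lemma SFfn.ite_eq {a b f g : (α → ℕ) → ℕ} (ha : SFfn a) (hb : SFfn b) (hf : SFfn f) (hg : SFfn g) :
    SFfn (fun v => if a v = b v then f v else g v) :=
  SFfn.ite (SF.eq ha hb) (SF.ne ha hb) hf hg

lemma SFfn.sub {f g : (α → ℕ) → ℕ} (hf : SFfn f) (hg : SFfn g) : SFfn (fun v => f v - g v) := by
  refine SFfn.comp2 (F := fun a b => a - b) ?_ hf hg
  have : SF (fun u : Option (Fin 2) → ℕ =>
      (u (some 0) < u (some 1) ∧ u none = 0) ∨ u none + u (some 1) = u (some 0)) :=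
    SF.or (SF.and (SF.lt (SFfn.proj _) (SFfn.proj _)) (SF.eq (SFfn.proj _) (SFfn.const _)))
      (SF.eq (SFfn.add (SFfn.proj _) (SFfn.proj _)) (SFfn.proj _)) fun v a b => by omega
  exact this.congr fun v => by simp only; omega

lemma SFfn.max {f g : (α → ℕ) → ℕ} (hf : SFfn f) (hg : SFfn g) : SFfn (fun v => max (f v) (g v)) :=
  (hf.add (hg.sub hf)).congr fun v => by omega

lemma SFfn.div {f g : (α → ℕ) → ℕ} (hf : SFfn f) (hg : SFfn g) : SFfn (fun v => f v / g v) := by
  refine SFfn.comp2 (F := fun a b => a / b) ?_ hf hg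
  have : SF (fun u : Option (Fin 2) → ℕ =>
      (u (some 1) = 0 ∧ u none = 0) ∨
        (u none * u (some 1) ≤ u (some 0) ∧ u (some 0) < (u none + 1) * u (some 1))) :=
    SF.or (SF.and (SF.eq (SFfn.proj _) (SFfn.const _)) (SF.eq (SFfn.proj _) (SFfn.const _)))
      (SF.and (SF.le (SFfn.mul (SFfn.proj _) (SFfn.proj _)) (SFfn.proj _))
        (SF.lt (SFfn.proj _) (SFfn.mul (SFfn.add (SFfn.proj _) (SFfn.const _)) (SFfn.proj _))))
      fun v a b => by simp [a.1] at b
  refine this.congr fun v => ?_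
  simp only
  rcases Nat.eq_zero_or_pos (v (some 1)) with h | h
  · simp [h]
  · constructor
    · rintro (⟨a, -⟩ | ⟨a, b⟩)
      · omega
      · exact (Nat.div_eq_of_lt_le a b).symm
    · intro e
      right
      rw [e]
      exact ⟨Nat.div_mul_le_self _ _, (Nat.div_lt_iff_lt_mul h).1 (Nat.lt_succ_self _)⟩

lemma SFfn.mod {f g : (α → ℕ) → ℕ} (hf : SFfn f) (hg : SFfn g) : SFfn (fun v => f v % g v) :=
  (hf.sub (hg.mul (hf.div hg))).congr fun v => by
    have := Nat.mod_add_div (f v) (g v); omega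

lemma SF.dvd {f g : (α → ℕ) → ℕ} (hf : SFfn f) (hg : SFfn g) : SF (fun v => f v ∣ g v) :=
  (SF.eq (hg.mod hf) (SFfn.const 0)).congr fun _ => Nat.dvd_iff_mod_eq_zero.symm

lemma SF.modEq {f g n : (α → ℕ) → ℕ} (hf : SFfn f) (hg : SFfn g) (hn : SFfn n) :
    SF (fun v => f v ≡ g v [MOD n v]) :=
  SF.eq (hf.mod hn) (hg.mod hn)

lemma SFfn.sum {ι : Type} (s : Finset ι) {f : ι → (α → ℕ) → ℕ} (hf : ∀ i, SFfn (f i)) :
    SFfn (fun v => ∑ i ∈ s, f i v) := by
  classical
  induction s using Finset.induction_on with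
  | empty => exact (SFfn.const 0).congr fun v => by simp
  | insert a s ha ih => exact ((hf a).add ih).congr fun v => by simp [Finset.sum_insert ha]

lemma SFfn.pow_const {f : (α → ℕ) → ℕ} (hf : SFfn f) (k : ℕ) : SFfn (fun v => f v ^ k) := by
  induction k with
  | zero => exact (SFfn.const 1).congr fun v => by simp
  | succ k ih => exact (ih.mul hf).congr fun v => by simp [pow_succ]

/-- The statement that exponentiation is single-fold Diophantine. -/
def PowSF : Prop := SFfn (fun u : Fin 2 → ℕ => u 0 ^ u 1)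

lemma SFfn.pow (hp : PowSF) {f g : (α → ℕ) → ℕ} (hf : SFfn f) (hg : SFfn g) :
    SFfn (fun v => f v ^ g v) :=
  SFfn.comp2 (F := fun a b => a ^ b) hp hf hg

/-- The statement that single-fold predicates are closed under bounded universal quantification. -/
def BallSF : Prop :=
  ∀ (α : Type) [Finite α] (S : (α → ℕ) → ℕ → Prop) (b : (α → ℕ) → ℕ),
    SF (fun u : Option α → ℕ => S (fun i => u (some i)) (u none)) → SFfn b →
      SF (fun v => ∀ y < b v, S v y)

end Crest.Agent.R323
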