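import Crest.Agent.R323.Basic

/-! Binomial coefficients and factorials are single-fold once exponentiation is. -/

set_option autoImplicit false

namespace Crest.Agent.R323

open Finset

lemma digit_sum (u : ℕ) (k : ℕ) : ∀ (F : ℕ → ℕ) (_ : ∀ i, F i < u) (m : ℕ),
    (∑ i ∈ range m, F i * u ^ i) / u ^ k % u = if k < m then F k else 0 := by
  induction k with
  | zero =>
    intro F hF m
    cases m with
    | zero => simp
    | succ m =>
      rw [sum_range_succ']
      have : ∑ i ∈ range m, F (i + 1) * u ^ (i + 1) = u * ∑ i ∈ range m, F (i + 1) * u ^ i := by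
        rw [mul_sum]; exact sum_congr rfl fun i _ => by ring
      rw [this]
      simp [Nat.mod_eq_of_lt (hF 0)]
  | succ k ih =>
    intro F hF m
    cases m with
    | zero => simp
    | succ m =>
      have hu : 0 < u := lt_of_le_of_lt (Nat.zero_le _) (hF 0)
      rw [sum_range_succ']
      have : ∑ i ∈ range m, F (i + 1) * u ^ (i + 1) = u * ∑ i ∈ range m, F (i + 1) * u ^ i := by
        rw [mul_sum]; exact sum_congr rfl fun i _ => by ring
      rw [this, pow_succ', ← Nat.div_div_eq_div_mul, pow_zero, mul_one, Nat.mul_add_div hu,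
        Nat.div_eq_of_lt (hF 0), add_zero, ih (fun i => F (i + 1)) (fun i => hF _)]
      simp

lemma choose_eq_digit (n k : ℕ) :
    n.choose k = (2 ^ (n + 1) + 1) ^ n / (2 ^ (n + 1)) ^ k % 2 ^ (n + 1) := by
  have h := digit_sum (2 ^ (n + 1)) k (fun i => n.choose i) (fun i =>
    lt_of_le_of_lt (Nat.choose_le_two_pow n i) (Nat.pow_lt_pow_right (by norm_num) (by omega))) (n + 1)
  have e : (2 ^ (n + 1) + 1) ^ n = ∑ i ∈ range (n + 1), n.choose i * (2 ^ (n + 1)) ^ i := by
    rw [add_pow]; exact sum_congr rfl fun i _ => by simp [mul_comm]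
  rw [e, h]
  split_ifs with hk
  · rfl
  · exact Nat.choose_eq_zero_of_lt (by omega)

lemma pow_le_desc (r : ℕ) : ∀ n : ℕ, n ≤ r → r ^ (n + 1) ≤ r * r.descFactorial n + n ^ 2 * r ^ n := by
  intro n
  induction n with
  | zero => simp
  | succ n ih =>
    intro hn
    have h1 := ih (by omega)
    have h2 : r.descFactorial n ≤ r ^ n := Nat.descFactorial_le_pow r n
    rw [Nat.descFactorial_succ]
    obtain ⟨s, rfl⟩ : ∃ s, r = n + s := ⟨r - n, by omega⟩
    rw [Nat.add_sub_cancel_left]
    set D := (n + s).descFactorial n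
    set X := (n + s) ^ n with hX
    have e1 : (n + s) ^ (n + 1) = (n + s) * X := by rw [hX]; ring
    have e2 : (n + s) ^ (n + 1 + 1) = (n + s) * ((n + s) * X) := by rw [hX]; ring
    rw [e1] at h1
    rw [e2, e1]
    have h3 : (n + s) * ((n + s) * X) ≤ (n + s) * ((n + s) * D + n ^ 2 * X) :=
      Nat.mul_le_mul_left _ h1
    have h4 : n * ((n + s) * D) ≤ n * ((n + s) * X) :=
      Nat.mul_le_mul_left _ (Nat.mul_le_mul_left _ h2)
    nlinarith [Nat.zero_le ((n + s) * X), Nat.zero_le (n * ((n + s) * X))]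

lemma factorial_eq_div (n : ℕ) :
    n.factorial = ((n ^ n + 1) * (n * n) + n + 1) ^ n / ((n ^ n + 1) * (n * n) + n + 1).choose n := by
  set r := (n ^ n + 1) * (n * n) + n + 1 with hr
  have hnr : n ≤ r := by omega
  have hD : r.descFactorial n = n.factorial * r.choose n := Nat.descFactorial_eq_factorial_mul_choose r n
  have hf : n.factorial ≤ n ^ n := Nat.factorial_le_pow n
  have hfp : 0 < n.factorial := Nat.factorial_pos n
  symm
  apply Nat.div_eq_of_lt_le
  · rw [← hD]; exact Nat.descFactorial_le_pow r n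
  · have h1 := pow_le_desc r n hnr
    rw [hD, pow_succ] at h1
    set X := r ^ n with hX
    have hXp : 0 < X := by positivity
    have hrp : 0 < r := by omega
    set f := n.factorial
    set C := r.choose n
    by_contra hc
    push Not at hc
    have h2 : (f + 1) * (n * n) < r := by
      have : (f + 1) * (n * n) ≤ (n ^ n + 1) * (n * n) := Nat.mul_le_mul_right _ (by omega)
      omega
    have h3 : r * f * ((f + 1) * C) ≤ r * f * X := Nat.mul_le_mul_left _ hc
    have h4 : (f + 1) * (X * r) ≤ (f + 1) * (r * (f * C) + n ^ 2 * X) := Nat.mul_le_mul_left _ h1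
    have h5 : (f + 1) * (n * n) * X < r * X := Nat.mul_lt_mul_of_pos_right h2 hXp
    nlinarith

variable {α : Type}

lemma SFfn.choose (hp : PowSF) {f g : (α → ℕ) → ℕ} (hf : SFfn f) (hg : SFfn g) :
    SFfn (fun v => (f v).choose (g v)) := by
  have h2 : SFfn (fun v => 2 ^ (f v + 1)) := SFfn.pow hp (SFfn.const 2) (hf.add (SFfn.const 1))
  exact (((SFfn.pow hp (h2.add (SFfn.const 1)) hf).div (SFfn.pow hp h2 hg)).mod h2).congr
    fun v => (choose_eq_digit _ _).symm

lemma SFfn.factorial (hp : PowSF) {f : (α → ℕ) → ℕ} (hf : SFfn f) :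
    SFfn (fun v => (f v).factorial) := by
  have h2 : SFfn (fun v => (f v ^ f v + 1) * (f v * f v) + f v + 1) :=
    ((((SFfn.pow hp hf hf).add (SFfn.const 1)).mul (hf.mul hf)).add hf).add (SFfn.const 1)
  exact ((SFfn.pow hp h2 hf).div (SFfn.choose hp h2 hf)).congr fun v => (factorial_eq_div _).symm

lemma SFfn.descFactorial (hp : PowSF) {f g : (α → ℕ) → ℕ} (hf : SFfn f) (hg : SFfn g) :
    SFfn (fun v => (f v).descFactorial (g v)) :=
  ((SFfn.factorial hp hg).mul (SFfn.choose hp hf hg)).congr
    fun _ => (Nat.descFactorial_eq_factorial_mul_choose _ _).symm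

end Crest.Agent.R323
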