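import Crest.Agent.R323.Basic

/-! From a single-fold function of quasi-polynomial growth to exponentiation. -/

set_option autoImplicit false

namespace Crest.Agent.R323

open Pell Sum

/-- There is a single-fold function of quasi-polynomial growth. -/
def QuasiSF : Prop :=
  ∃ (Q : ℕ → ℕ) (A0 : ℕ), SFfn (fun u : Unit → ℕ => Q (u ())) ∧
    ∀ A, A0 ≤ A → (2 * A) ^ (Nat.log 2 A) ≤ Q A ∧ Q A < A ^ (A - 1)

lemma xn_le_pow {a : ℕ} (a1 : 1 < a) : ∀ n, xn a1 n ≤ (2 * a) ^ n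
  | 0 => by simp
  | 1 => by rw [xn_one, pow_one]; omega
  | n + 2 => by
    have h1 := xn_succ_succ a1 n
    have h2 := xn_le_pow a1 (n + 1)
    have h3 : 2 * a * xn a1 (n + 1) ≤ 2 * a * (2 * a) ^ (n + 1) := Nat.mul_le_mul_left _ h2
    rw [pow_succ' (2 * a) (n + 1)]
    omega

/-- The bounded Pell relation. -/
def PR (Q : ℕ → ℕ) (A b X Y : ℕ) : Prop :=
  X * X = (A * A - 1) * Y * Y + 1 ∧ Y ≡ b [MOD A - 1] ∧ b < A - 1 ∧ X ≤ Q A

lemma PR.eq {Q : ℕ → ℕ} {A b X Y : ℕ} (a1 : 1 < A) (hQ : Q A < A ^ (A - 1)) (h : PR Q A b X Y) :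
    X = xn a1 b ∧ Y = yn a1 b := by
  obtain ⟨h1, h2, h3, h4⟩ := h
  have h1' : X * X - (A * A - 1) * Y * Y = 1 := by omega
  obtain ⟨j, rfl, rfl⟩ := eq_pell a1 h1'
  have hj : j < A - 1 := by
    have := xn_ge_a_pow a1 j
    exact (Nat.pow_lt_pow_iff_right a1).1 (by omega)
  have h5 := (yn_modEq_a_sub_one a1 j).symm.trans h2
  have : j = b := by
    rw [Nat.ModEq, Nat.mod_eq_of_lt hj, Nat.mod_eq_of_lt h3] at h5
    exact h5
  subst this
  exact ⟨rfl, rfl⟩

lemma PR.intro {Q : ℕ → ℕ} {A b : ℕ} (a1 : 1 < A) (hQ : (2 * A) ^ (Nat.log 2 A) ≤ Q A)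
    (hb : 2 ^ b ≤ A) (hb' : b < A - 1) : PR Q A b (xn a1 b) (yn a1 b) := by
  refine ⟨?_, yn_modEq_a_sub_one a1 b, hb', ?_⟩
  · have : xn a1 b * xn a1 b - (A * A - 1) * yn a1 b * yn a1 b = 1 := pell_eq a1 b
    omega
  · have h1 : b ≤ Nat.log 2 A := Nat.le_log_of_pow_le (by norm_num) hb
    exact ((xn_le_pow a1 b).trans (Nat.pow_le_pow_right (by omega) h1)).trans hQ

lemma pell_pow_modEq {A a : ℕ} (a1 : 1 < A) (ha : 1 ≤ a) (haA : a ≤ A) (b : ℕ) :
    xn a1 b ≡ yn a1 b * (A - a) + a ^ b [MOD 2 * A * a - a * a - 1] := by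
  apply Nat.modEq_of_dvd
  have h1 : a * a ≤ A * a := Nat.mul_le_mul_right _ haA
  have h2 : 1 ≤ A * a := Nat.mul_pos (by omega) ha
  have e : ((2 * A * a - a * a - 1 : ℕ) : ℤ) = 2 * A * a - a * a - 1 := by
    have : 2 * A * a = 2 * (A * a) := by ring
    rw [Nat.cast_sub (by omega), Nat.cast_sub (by omega)]
    push_cast; ring
  rw [e, Nat.cast_add, Nat.cast_mul, Int.ofNat_sub haA]
  exact x_sub_y_dvd_pow a1 a b

lemma SF.pr {α : Type} {Q : ℕ → ℕ} (hQ : SFfn (fun u : Unit → ℕ => Q (u ())))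
    {A b X Y : (α → ℕ) → ℕ} (hA : SFfn A) (hb : SFfn b) (hX : SFfn X) (hY : SFfn Y) :
    SF (fun v => PR Q (A v) (b v) (X v) (Y v)) :=
  SF.and (SF.eq (hX.mul hX) (((((hA.mul hA).sub (SFfn.const 1)).mul hY).mul hY).add (SFfn.const 1)))
    (SF.and (SF.modEq hY hb (hA.sub (SFfn.const 1)))
      (SF.and (SF.lt hb (hA.sub (SFfn.const 1))) (SF.le hX (hQ.comp1 hA))))

/-- The single-fold description of `c = a ^ b` for `2 ≤ a`. -/
def PowRel (Q : ℕ → ℕ) (A0 a b c : ℕ) (w : Fin 4 → ℕ) : Prop :=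
  2 ≤ a ∧ PR Q (a + b + c + A0) b (w 0) (w 1) ∧ PR Q (w 0 + (a + b + c + A0)) b (w 2) (w 3) ∧
    w 2 ≡ w 3 * (w 0 + (a + b + c + A0) - a) + c
      [MOD 2 * (w 0 + (a + b + c + A0)) * a - a * a - 1]

theorem powSF (h : QuasiSF) : PowSF := by
  obtain ⟨Q, A0, hQ, hb⟩ := h
  have huniq : ∀ a b c w w', PowRel Q A0 a b c w → PowRel Q A0 a b c w' → w = w' := by
    intro a b c w w' ⟨ha, h1, h2, _⟩ ⟨_, h1', h2', _⟩
    have a1 : 1 < a + b + c + A0 := by omega
    obtain ⟨e0, e1⟩ := h1.eq a1 (hb _ (by omega)).2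
    obtain ⟨e0', e1'⟩ := h1'.eq a1 (hb _ (by omega)).2
    have e : w' 0 = w 0 := e0'.trans e0.symm
    rw [e] at h2'
    have a2 : 1 < w 0 + (a + b + c + A0) := by omega
    obtain ⟨e2, e3⟩ := h2.eq a2 (hb _ (by omega)).2
    obtain ⟨e2', e3'⟩ := h2'.eq a2 (hb _ (by omega)).2
    funext i
    fin_cases i
    · exact e.symm
    · exact e1.trans e1'.symm
    · exact e2.trans e2'.symm
    · exact e3.trans e3'.symm
  have hiff : ∀ a b c, (∃ w, PowRel Q A0 a b c w) ↔ 2 ≤ a ∧ c = a ^ b := by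
    intro a b c
    constructor
    · rintro ⟨w, ha, h1, h2, h3⟩
      refine ⟨ha, ?_⟩
      have a1 : 1 < a + b + c + A0 := by omega
      obtain ⟨e0, -⟩ := h1.eq a1 (hb _ (by omega)).2
      have a2 : 1 < w 0 + (a + b + c + A0) := by omega
      obtain ⟨e2, e3⟩ := h2.eq a2 (hb _ (by omega)).2
      have h4 := pell_pow_modEq a2 (a := a) (by omega) (by omega) b
      rw [← e2, ← e3] at h4
      have h5 := (h3.symm.trans h4).add_left_cancel' _
      have h6 : a ^ b ≤ w 0 := by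
        rw [e0]; exact (Nat.pow_le_pow_left (by omega) b).trans (xn_ge_a_pow a1 b)
      set A := w 0 + (a + b + c + A0) with hA
      have h7 : a * a ≤ A * a := Nat.mul_le_mul_right _ (by omega)
      have h8 : A * 2 ≤ A * a := Nat.mul_le_mul_left _ ha
      have h9 : 2 * A * a = 2 * (A * a) := by ring
      rw [Nat.ModEq, Nat.mod_eq_of_lt (by omega), Nat.mod_eq_of_lt (by omega)] at h5
      exact h5
    · rintro ⟨ha, rfl⟩
      have h2b : 2 ^ b ≤ a ^ b := Nat.pow_le_pow_left ha b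
      have a1 : 1 < a + b + a ^ b + A0 := by omega
      have a2 : 1 < xn a1 b + (a + b + a ^ b + A0) := by omega
      refine ⟨![xn a1 b, yn a1 b, xn a2 b, yn a2 b], ha, ?_, ?_, ?_⟩
      · exact PR.intro a1 (hb _ (by omega)).1 (by omega) (by omega)
      · exact PR.intro a2 (hb _ (by omega)).1 (by omega) (by omega)
      · exact pell_pow_modEq a2 (by omega) (by omega) b
  have ha : SFfn (fun u : Option (Fin 2) ⊕ Fin 4 → ℕ => u (inl (some 0))) := SFfn.proj _
  have hb' : SFfn (fun u : Option (Fin 2) ⊕ Fin 4 → ℕ => u (inl (some 1))) := SFfn.proj _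
  have hc : SFfn (fun u : Option (Fin 2) ⊕ Fin 4 → ℕ => u (inl none)) := SFfn.proj _
  have hw : ∀ i, SFfn (fun u : Option (Fin 2) ⊕ Fin 4 → ℕ => u (inr i)) := fun i => SFfn.proj _
  have hA1 := ((ha.add hb').add hc).add (SFfn.const A0)
  have hA2 := (hw 0).add hA1
  have hR : SF (fun u : Option (Fin 2) ⊕ Fin 4 → ℕ =>
      PowRel Q A0 (u (inl (some 0))) (u (inl (some 1))) (u (inl none)) (fun i => u (inr i))) :=
    SF.and (SF.le (SFfn.const 2) ha) (SF.and (SF.pr hQ hA1 hb' (hw 0) (hw 1))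
      (SF.and (SF.pr hQ hA2 hb' (hw 2) (hw 3))
        (SF.modEq (hw 2) (((hw 3).mul (hA2.sub ha)).add hc)
          (((((SFfn.const 2).mul hA2).mul ha).sub (ha.mul ha)).sub (SFfn.const 1)))))
  have h2 := SF.exuSum (γ := Fin 4)
    (S := fun (v : Option (Fin 2) → ℕ) w => PowRel Q A0 (v (some 0)) (v (some 1)) (v none) w) hR
    (fun v => huniq _ _ _)
  have h1 : SF (fun v : Option (Fin 2) → ℕ =>
      v (some 0) < 2 ∧ v none = if v (some 1) = 0 then 1 else v (some 0)) :=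
    SF.and (SF.lt (SFfn.proj _) (SFfn.const 2)) (SF.eq (SFfn.proj _)
      (SFfn.ite_eq (SFfn.proj _) (SFfn.const 0) (SFfn.const 1) (SFfn.proj _)))
  refine (h1.or h2 fun v a b => ?_).congr fun v => ?_
  · have := ((hiff _ _ _).1 b).1
    omega
  · rw [hiff]
    simp only
    rcases Nat.lt_or_ge (v (some 0)) 2 with h | h
    · have e : (if v (some 1) = 0 then 1 else v (some 0)) = v (some 0) ^ v (some 1) := by
        split_ifs with h0
        · simp [h0]
        · interval_cases v (some 0)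
          · simp [h0]
          · simp
      rw [e]
      constructor
      · rintro (h' | h') <;> exact h'.2
      · exact fun h' => Or.inl ⟨h, h'⟩
    · constructor
      · rintro (h' | h')
        · omega
        · exact h'.2
      · exact fun h' => Or.inr ⟨h, h'⟩

end Crest.Agent.R323
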